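import Vale.Agent.P257.H632.Ext
import Vale.Agent.P257.H93.Yon

/-!
# P257 (helper632): definitions for the leading term method on `CobP p n`

A *word* is a list `l` of digit vectors `l_k : ℕ × ℕ →₀ ℕ`; the digit `(i, j)` stands for
`t_{i+1} ^ (p ^ j)`.  A word is reduced if all digits are `< p`.
-/

set_option linter.unusedSectionVars false

noncomputable section

namespace Vale.Agent.P257.H632

open Vale.Agent.P257.H93

/-! ### word cochains (any index set of digits) -/

section Words

variable {I : Type} [DecidableEq I] [HasOrd I] {k : Type} [CommRing k]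
variable {M : Type} [AddCommGroup M]

/-- the differential of word cochains, the first letter being a coefficient:
`(dC f)(y, m_1, ..., m_n) = f(y + m_1, m_2, ...) - f(y, m_1 + m_2, ...) + ...` -/
def dC : List (I →₀ ℕ) → (List (I →₀ ℕ) → M) → M
  | [], _ => 0
  | [y], f => if y = 0 then f [] else 0
  | y :: m :: l, f => f ((y + m) :: l) - dC (m :: l) (fun l' => f (y :: l'))

/-- the differential of word cochains -/
def dK (f : List (I →₀ ℕ) → M) : List (I →₀ ℕ) → M
  | [] => 0
  | m :: l => (if m = 0 then f l else 0) - dC (m :: l) f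

/-- `h_v` or `b_v`-operators applied to the first letter -/
def Ph (p : ℕ) (T : Finset I) (f : List (I →₀ ℕ) → EI I → k) (l : List (I →₀ ℕ)) : EI I → k :=
  ∑ v ∈ T, (lam v (f (Finsupp.single v 1 :: l)) + kap v (f (Finsupp.single v (p - 1) :: l)))

/-- the monomial `1` -/
def one1 : EI I → k := fun e => if e = (∅, 0) then 1 else 0

/-- the variables occurring in a monomial -/
def esup (r : EI I) : Finset I := r.1 ∪ r.2.support

/-- scalar valued word cochains as `EI I → k`-valued ones -/
def toC (f : List (I →₀ ℕ) → k) (c : EI I → k) : List (I →₀ ℕ) → EI I → k := fun l => f l • c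

/-- the functional `Θ_r` on word cochains of length `n` -/
def thW (p n : ℕ) (r : EI I) (f : List (I →₀ ℕ) → k) : k :=
  ((Ph p (esup r))^[n] (toC f one1)) [] r

/-- all digits are `< p` -/
def Red (p : ℕ) (l : List (I →₀ ℕ)) : Prop := ∀ m ∈ l, ∀ v, m v < p

/-- the level of a word -/
def lev (μ : I → ℕ) (l : List (I →₀ ℕ)) : ℕ := (l.map fun m => m.sum fun v c => c * μ v).sum

/-- the level of a monomial `r = ∏ h_v ∏ b_v ^ β_v` : `h_v` has level `μ v`, `b_v` has `p μ v` -/
def levM (p : ℕ) (μ : I → ℕ) (r : EI I) : ℕ :=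
  ∑ v ∈ r.1, μ v + p * r.2.sum fun v c => c * μ v

/-- the cohomological degree of a monomial -/
def degM (r : EI I) : ℕ := r.1.card + 2 * r.2.sum fun _ c => c

end Words

/-! ### symbols of polynomial cochains -/

/-- digit vectors -/
abbrev Ex : Type := (ℕ × ℕ) →₀ ℕ

/-- the exponent of the monomial of a word -/
def toE (p n : ℕ) (l : List Ex) : (Fin n × ℕ) →₀ ℕ :=
  ∑ k : Fin n, (l.getD k 0).sum fun v c => Finsupp.single (k, v.1) (c * p ^ v.2)

/-- the product of the factorials of the digits -/
def fac (l : List Ex) : ℕ := (l.map fun m => m.prod fun _ c => c.factorial).prod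

open Classical in
/-- the symbol of a polynomial cochain: coefficients in the divided power basis -/
def symb {p : ℕ} (n : ℕ) (z : CobP p n) (l : List Ex) : ZMod p :=
  if l.length = n ∧ Red p l then (fac l : ZMod p) * MvPolynomial.coeff (toE p n l) z else 0

theorem symb_add {p n : ℕ} (z w : CobP p n) (l : List Ex) :
    symb n (z + w) l = symb n z l + symb n w l := by
  unfold symb
  split_ifs
  · rw [MvPolynomial.coeff_add]; ring
  · ring

theorem symb_smul {p n : ℕ} (c : ZMod p) (z : CobP p n) (l : List Ex) :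
    symb n (c • z) l = c * symb n z l := by
  unfold symb
  split_ifs
  · rw [MvPolynomial.coeff_smul, smul_eq_mul]; ring
  · ring

theorem symb_zero {p n : ℕ} (l : List Ex) : symb n (0 : CobP p n) l = 0 := by
  unfold symb
  split_ifs <;> simp

/-- `Fil μ n m` : cochains of level `< m` -/
def Fil {p : ℕ} (μ : ℕ × ℕ → ℕ) (n m : ℕ) : Submodule (ZMod p) (CobP p n) where
  carrier := {z | ∀ l, m ≤ lev μ l → symb n z l = 0}
  add_mem' h1 h2 l hl := by rw [symb_add, h1 l hl, h2 l hl, add_zero]
  zero_mem' l _ := symb_zero l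
  smul_mem' c z h l hl := by rw [symb_smul, h l hl, mul_zero]

/-- the weight of a digit: `p^j + ... + p^{i+j}` -/
def wD (p : ℕ) (v : ℕ × ℕ) : ℕ := ∑ l ∈ Finset.range (v.1 + 1), p ^ (v.2 + l)

/-- homogeneous cochains of weight `W` (`t_{i+1}` has weight `1 + ... + p^i`) -/
def WtP (p n W : ℕ) : Submodule (ZMod p) (CobP p n) :=
  MvPolynomial.weightedHomogeneousSubmodule (ZMod p) (fun ki : Fin n × ℕ => wD p (ki.2, 0)) W

/-- the functional `Θ_r` -/
def Th {p : ℕ} (n : ℕ) (r : EI (ℕ × ℕ)) (z : CobP p n) : ZMod p := thW p n r (symb n z)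

/-- admissible weights of digits -/
structure IsMu (p : ℕ) (μ : ℕ × ℕ → ℕ) : Prop where
  split : ∀ i j a, a < i → μ (a, j) + μ (i - (a + 1), j + (a + 1)) < μ (i, j)
  frob : ∀ i j, μ (i, j + 1) < p * μ (i, j)

end Vale.Agent.P257.H632

end
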