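import Vale.Agent.P257.H632.Engine
import Vale.Agent.P257.H134.Symb
import Vale.Agent.P257.H314.E0.CupTh

/-!
# P257 (helper632): the statements of the leading term engine on `CobP p n`
-/

noncomputable section

namespace Vale.Agent.P257.H632

open Vale.Agent.P257.H93

variable {p : ℕ} [hp : Fact p.Prime] {μ : ℕ × ℕ → ℕ} {n m W : ℕ}

/-- (L) leading part of the differential (helper134) -/
theorem leadP (hμ : IsMu p μ) : LeadP p μ := fun _ _ _ hz _ hl hln hr =>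
  H134.symb_dP hμ hz hl hln hr

/-- (L) leading part of the differential (helper134) -/
theorem symb_dP (hμ : IsMu p μ) {z : CobP p n} (hz : z ∈ Fil μ n (m + 1)) {l : List Ex}
    (hl : m ≤ lev μ l) (hln : l.length = n + 1) (hr : Red p l) :
    symb (n + 1) (dP n z) l = dK (symb n z) l := H134.symb_dP hμ hz hl hln hr

/-- (C) symbol of a cup product (helper941) -/
theorem symb_cupP {a b : ℕ} (x : CobP p a) (y : CobP p b) (l₁ l₂ : List Ex)
    (h₁ : l₁.length = a) (h₂ : l₂.length = b) :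
    symb (a + b) (cupP x y) (l₁ ++ l₂) = symb a x l₁ * symb b y l₂ :=
  H941.symb_cupP x y l₁ l₂ h₁ h₂

/-- (P1) `dP` preserves the filtration -/
theorem dP_mem_Fil (hμ : IsMu p μ) {z : CobP p n} (hz : z ∈ Fil μ n (m + 1)) :
    dP n z ∈ Fil μ (n + 1) (m + 1) := (leadP hμ).dP_mem hz

/-- (T1) -/
theorem Th_dP (hμ : IsMu p μ) {z : CobP p n} (hz : z ∈ Fil μ n (m + 1)) {r : EI (ℕ × ℕ)}
    (hr : m ≤ levM p μ r) : Th (n + 1) r (dP n z) = 0 := (leadP hμ).Th_dP hz hr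

/-- (T2) -/
theorem exists_sub_mem (hμ : IsMu p μ) (_hp2 : 2 < p) {z : CobP p (n + 1)}
    (hz : z ∈ Fil μ (n + 1) (m + 1)) (hW : z ∈ WtP p (n + 1) W)
    (hd : dP (n + 1) z ∈ Fil μ (n + 2) m)
    (hΘ : ∀ r : EI (ℕ × ℕ), degM r = n + 1 → levM p (wD p) r = W → levM p μ r = m →
      Th (n + 1) r z = 0) :
    ∃ y ∈ Fil μ n (m + 1), y ∈ WtP p n W ∧ z - dP n y ∈ Fil μ (n + 1) m :=
  (leadP hμ).exists_sub_mem hz hW hd hΘ

/-- (M1) product with `h_v`, on the nose -/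
theorem Th_cup_h (hp2 : 2 < p) (z : CobP p n) (r : EI (ℕ × ℕ)) (v : ℕ × ℕ) :
    Th (n + 1) r (cupP z (MvPolynomial.X (0, v.1) ^ (p ^ v.2) : CobP p 1)) =
      if v ∈ r.1 then (sg v r.1 : ZMod p) * Th n (r.1.erase v, r.2) z else 0 :=
  H314.Eng.Th_cup_h hp2 z r v

open Classical in
/-- `w` has leading symbol `b_v` (true for `-(1/p) ∑ binom(p,a) x_v^a | x_v^(p-a)` + lower terms) -/
structure IsB (μ : ℕ × ℕ → ℕ) (v : ℕ × ℕ) (w : CobP p 2) : Prop where
  mem : w ∈ Fil μ 2 (p * μ v + 1)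
  symb_eq : ∀ l : List Ex, lev μ l = p * μ v → symb 2 w l =
    if ∃ a, 0 < a ∧ a < p ∧ l = [Finsupp.single v a, Finsupp.single v (p - a)] then 1 else 0

/-- (M2) product with `b_v` -/
theorem Th_cup_b (hp2 : 2 < p) {z : CobP p n} (hz : z ∈ Fil μ n (m + 1)) {v : ℕ × ℕ}
    {w : CobP p 2} (hw : IsB μ v w) (r : EI (ℕ × ℕ)) (hr : m + p * μ v ≤ levM p μ r) :
    Th (n + 2) r (cupP z w) =
      if 1 ≤ r.2 v then Th n (r.1, r.2 - Finsupp.single v 1) z else 0 :=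
  H314.Eng.Th_cup_b hp2 hz hw.mem hw.symb_eq r hr

end Vale.Agent.P257.H632

end
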