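import Vale.Agent.P257.H632.Words4
import Vale.Agent.P257.H604.Sym
import Vale.Agent.P257.H93.Cup

/-!
# P257 (helper632): (T0), (T1), (T2) for polynomial cochains, from the leading part of `dP`
-/

set_option linter.unusedSectionVars false

noncomputable section

namespace Vale.Agent.P257.H632

open Vale.Agent.P257.H93 Vale.Agent.P257.H604

/-- the statement of (L): leading part of the differential -/
def LeadP (p : ℕ) [Fact p.Prime] (μ : ℕ × ℕ → ℕ) : Prop :=
  ∀ (n m : ℕ) (z : CobP p n), z ∈ Fil μ n (m + 1) → ∀ l : List Ex, m ≤ lev μ l →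
    l.length = n + 1 → Red p l → symb (n + 1) (dP n z) l = dK (symb n z) l

section words

variable {M : Type} [AddCommGroup M] {p : ℕ}

theorem lev_eq (μ : ℕ × ℕ → ℕ) (l : List Ex) : lev μ l = l.sum.sum fun v c => c * μ v := by
  induction l with
  | nil => simp [lev]
  | cons m l ih =>
    rw [lev_cons, ih, List.sum_cons, Finsupp.sum_add_index']
    · simp
    · intro v a b; ring

theorem levM_eq (μ : ℕ × ℕ → ℕ) (r : EI (ℕ × ℕ)) :
    levM p μ r = (dg p r).sum fun v c => c * μ v := by
  rw [levM, dg, Finsupp.sum_add_index']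
  · congr 1
    · rw [← Finsupp.sum_finsetSum_index]
      · refine Finset.sum_congr rfl fun v _ => ?_
        rw [Finsupp.sum_single_index (by simp), one_mul]
      · simp
      · intro v a b; ring
    · rw [Finsupp.sum_smul_index (by simp), Finsupp.mul_sum]
      simp only [mul_assoc]
  · simp
  · intro v a b; ring

theorem lev_of_sum (μ : ℕ × ℕ → ℕ) {l : List Ex} {r : EI (ℕ × ℕ)} (h : l.sum = dg p r) :
    lev μ l = levM p μ r := by
  rw [lev_eq, levM_eq, h]

theorem dC_congr_sum {l : List Ex} {f g : List Ex → M}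
    (h : ∀ l' : List Ex, l'.length + 1 = l.length → l'.sum = l.sum → f l' = g l') :
    dC l f = dC l g := by
  induction l generalizing f g with
  | nil => rfl
  | cons y l ih =>
    cases l with
    | nil =>
      rw [dC_single, dC_single]
      split_ifs with hy
      · exact h [] rfl (by simp [hy])
      · rfl
    | cons m l =>
      rw [dC_cons, dC_cons, h ((y + m) :: l) rfl (by simp [add_assoc])]
      congr 1
      exact ih fun l' hl' hs => h (y :: l') (by simp only [List.length_cons] at hl' ⊢; omega)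
        (by simp only [List.sum_cons] at hs ⊢; rw [hs])

theorem dK_congr_sum {l : List Ex} {f g : List Ex → M}
    (h : ∀ l' : List Ex, l'.length + 1 = l.length → l'.sum = l.sum → f l' = g l') :
    dK f l = dK g l := by
  cases l with
  | nil => rfl
  | cons m l =>
    rw [dK, dK, dC_congr_sum h]
    congr 1
    split_ifs with hm
    · exact h l rfl (by simp [hm])
    · rfl

theorem dC_of_length {l : List Ex} {f : List Ex → M} {n : ℕ} (hf : ∀ l, f l ≠ 0 → l.length = n)
    (hl : l.length ≠ n + 1) : dC l f = 0 := by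
  rw [← dC_zero' (M := M) l]
  apply dC_congr
  intro l' hl'
  by_contra h
  exact hl (by rw [← hl', hf l' h])

theorem dK_of_length {l : List Ex} {f : List Ex → M} {n : ℕ} (hf : ∀ l, f l ≠ 0 → l.length = n)
    (hl : l.length ≠ n + 1) : dK f l = 0 := by
  cases l with
  | nil => rfl
  | cons m l =>
    rw [dK, dC_of_length hf hl, sub_zero]
    split_ifs with hm
    · by_contra h
      exact hl (by rw [List.length_cons, hf l h])
    · rfl

theorem dK_of_not_red [Fact p.Prime] {l : List Ex} {f : List Ex → ZMod p}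
    (hf : ∀ l, ¬ Red p l → f l = 0) (hl : ¬ Red p l) : dK f l = 0 := by
  have hp : 0 < p := (Fact.out : p.Prime).pos
  have key : ∀ l : List Ex, ¬ Red p l → dC l f = 0 := by
    intro l hl
    by_contra h
    have h1 : dC l (toC f one1) ((∅, 0) : EI (ℕ × ℕ)) ≠ 0 := by
      rw [dC_toC]
      simpa [one1] using h
    apply hl
    revert h1
    refine dC_supp (P := fun l _ => Red p l) (P' := fun l _ => Red p l) ?_ ?_ ?_ l _
    · intro l e h
      by_contra h'
      apply h
      rw [toC, hf l h', zero_smul]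
      rfl
    · intro l₁ y m l₂ _ h x hx v
      simp only [List.mem_append, List.mem_cons] at hx
      rcases hx with hx | rfl | rfl | hx
      · exact h x (by simp [hx]) v
      · have := h (x + m) (by simp) v
        rw [Finsupp.add_apply] at this
        omega
      · have := h (y + x) (by simp) v
        rw [Finsupp.add_apply] at this
        omega
      · exact h x (by simp [hx]) v
    · intro l₁ _ h x hx v
      simp only [List.mem_append, List.mem_cons, List.not_mem_nil, or_false] at hx
      rcases hx with hx | rfl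
      · exact h x hx v
      · exact hp
  cases l with
  | nil => rfl
  | cons m l =>
    rw [dK, key _ hl, sub_zero]
    split_ifs with hm
    · apply hf
      intro h
      apply hl
      rw [red_cons]
      exact ⟨fun v => by rw [hm]; exact hp, h⟩
    · rfl

end words

variable {p : ℕ} [hp : Fact p.Prime] {μ : ℕ × ℕ → ℕ} {n m W : ℕ}

theorem symb_not_red {z : CobP p n} {l : List Ex} (h : ¬ Red p l) : symb n z l = 0 := by
  rw [symb, if_neg (fun h' => h h'.2)]

theorem symb_length {z : CobP p n} {l : List Ex} (h : symb n z l ≠ 0) : l.length = n :=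
  (symb_ne_zero h).1

/-- the leading part of the differential at all words -/
theorem LeadP.all (H : LeadP p μ) {z : CobP p n} (hz : z ∈ Fil μ n (m + 1)) {l : List Ex}
    (hl : m ≤ lev μ l) : symb (n + 1) (dP n z) l = dK (symb n z) l := by
  by_cases h1 : l.length = n + 1
  · by_cases h2 : Red p l
    · exact H n m z hz l hl h1 h2
    · rw [symb_not_red h2, dK_of_not_red (fun l h => symb_not_red h) h2]
  · rw [dK_of_length (fun l h => symb_length h) h1]
    by_contra h
    exact h1 (symb_length h)

/-- (T0) -/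
theorem Th_of_mem {z : CobP p n} (hz : z ∈ Fil μ n m) {r : EI (ℕ × ℕ)} (hr : m ≤ levM p μ r) :
    Th n r z = 0 := by
  have h1 : Th n r z = thW p n r (fun _ => (0 : ZMod p)) := by
    refine thW_congr hp.out.pos fun l _ hs => ?_
    apply hz
    rwa [lev_of_sum μ hs]
  have h2 : Th n r (0 : CobP p n) = thW p n r (fun _ => (0 : ZMod p)) := by
    refine thW_congr hp.out.pos fun l _ hs => ?_
    exact symb_zero l
  have h3 : ∀ (j : ℕ) (T : Finset (ℕ × ℕ)), (Ph p T)^[j] (toC (fun _ => (0 : ZMod p)) one1) =
      fun _ => (0 : EI (ℕ × ℕ) → ZMod p) := by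
    intro j T
    induction j with
    | zero =>
      funext l
      rw [Function.iterate_zero_apply, toC, zero_smul]
    | succ j ih =>
      rw [iter_succ, ih]
      funext l
      rw [Ph]
      simp
  rw [h1, thW, h3]
  rfl

/-- (T1) -/
theorem LeadP.Th_dP (H : LeadP p μ) {z : CobP p n} (hz : z ∈ Fil μ n (m + 1))
    {r : EI (ℕ × ℕ)} (hr : m ≤ levM p μ r) : Th (n + 1) r (dP n z) = 0 := by
  rw [Th, ← thW_dK (p := p) hp.out.two_le (g := symb n z) (fun l h => symb_not_red h) n r]
  refine thW_congr hp.out.pos fun l _ hs => ?_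
  apply H.all hz
  rwa [lev_of_sum μ hs]

/-- `dP` preserves the filtration -/
theorem LeadP.dP_mem (H : LeadP p μ) {z : CobP p n} (hz : z ∈ Fil μ n (m + 1)) :
    dP n z ∈ Fil μ (n + 1) (m + 1) := by
  intro l hl
  rw [H.all hz (by omega), ← show dK (fun _ => (0 : ZMod p)) l = 0 by
    cases l with
    | nil => rfl
    | cons a b => rw [dK, dC_zero', ite_self, sub_zero]]
  apply dK_congr_sum
  intro l' _ hs
  apply hz
  rwa [lev_eq, hs, ← lev_eq]

/-- (T2) -/
theorem LeadP.exists_sub_mem (H : LeadP p μ) {z : CobP p (n + 1)}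
    (hz : z ∈ Fil μ (n + 1) (m + 1)) (hW : z ∈ WtP p (n + 1) W)
    (hd : dP (n + 1) z ∈ Fil μ (n + 2) m)
    (hΘ : ∀ r : EI (ℕ × ℕ), degM r = n + 1 → levM p (wD p) r = W → levM p μ r = m →
      Th (n + 1) r z = 0) :
    ∃ y ∈ Fil μ n (m + 1), y ∈ WtP p n W ∧ z - dP n y ∈ Fil μ (n + 1) m := by
  classical
  set f : List Ex → ZMod p := fun l => if lev μ l = m then symb (n + 1) z l else 0 with hf
  set Q : Ex → Prop := fun ρ => (ρ.sum fun v c => c * μ v) = m ∧
    (ρ.sum fun v c => c * wD p v) = W with hQdef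
  set T : Finset (ℕ × ℕ) := Finset.range (W + 1) ×ˢ Finset.range (W + 1) with hT
  have hQ : ∀ ρ, Q ρ → ∀ v ∉ T, ρ v = 0 := by
    intro ρ hρ v hv
    by_contra h0
    apply hv
    have h1 : ρ v * wD p v ≤ W := by
      rw [← hρ.2, Finsupp.sum]
      exact Finset.single_le_sum (f := fun v => ρ v * wD p v) (fun _ _ => Nat.zero_le _)
        (Finsupp.mem_support_iff.2 h0)
    have h2 := lt_wD (p := p) v
    have h3 : wD p v ≤ ρ v * wD p v := Nat.le_mul_of_pos_left _ (Nat.pos_of_ne_zero h0)
    rw [hT, Finset.mem_product, Finset.mem_range, Finset.mem_range]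
    omega
  have hfs : ∀ l, f l ≠ 0 → l.length = n + 1 ∧ Red p l ∧ Q l.sum := by
    intro l hl
    simp only [hf] at hl
    split_ifs at hl with h
    · obtain ⟨h1, h2, _⟩ := symb_ne_zero hl
      refine ⟨h1, h2, ?_, ?_⟩
      · rw [← lev_eq, h]
      · rw [← lev_eq]
        exact mem_WtP_iff.1 hW l hl
    · exact absurd rfl hl
  have hfd : ∀ l, dK f l = 0 := by
    intro l
    by_cases hl : lev μ l = m
    · rw [← hd l hl.ge, H.all hz hl.ge]
      apply dK_congr_sum
      intro l' _ hs
      simp only [hf]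
      rw [if_pos]
      rw [lev_eq, hs, ← lev_eq, hl]
    · rw [← show dK (fun _ => (0 : ZMod p)) l = 0 by
        cases l with
        | nil => rfl
        | cons a b => rw [dK, dC_zero', ite_self, sub_zero]]
      apply dK_congr_sum
      intro l' _ hs
      simp only [hf]
      rw [if_neg]
      rwa [lev_eq, hs, ← lev_eq]
  have hfΘ : (Ph p T)^[n + 1] (toC f one1) [] = 0 := by
    funext r
    by_contra hne
    have hS := iter_sup (p := p) (T := T) hp.out.pos (a := 0) (n := n + 1) (b := 0)
      (F := toC f one1) (by rw [zero_add]; exact toC_sup hfs)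
    obtain ⟨_, h2, _, h4⟩ := hS [] r hne
    rw [zero_add] at h2
    rw [List.sum_nil, zero_add] at h4
    have h5 : esup r ⊆ T := by
      intro v hv
      by_contra hvT
      have := hQ _ h4 v hvT
      rw [dg_apply] at this
      rw [mem_esup] at hv
      rcases hv with hv | hv
      · rw [if_pos hv] at this
        omega
      · have h6 : 0 < p * r.2 v := Nat.mul_pos hp.out.pos hv
        omega
    have hlm : levM p μ r = m := by rw [levM_eq]; exact h4.1
    apply hne
    rw [iter_eq_thW hp.out.pos h5]
    have h7 : thW p (n + 1) r f = Th (n + 1) r z := by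
      refine thW_congr hp.out.pos fun l _ hs => ?_
      simp only [hf]
      rw [if_pos (by rw [lev_of_sum μ hs, hlm])]
    rw [h7]
    exact hΘ r h2 (by rw [levM_eq]; exact h4.2) hlm
  obtain ⟨g, hg, hfg⟩ := word_T2 (p := p) (T := T) hp.out.two_le hQ hfs hfd hfΘ
  obtain ⟨y, hy, hys⟩ := exists_symb_WtP (p := p) (n := n) (W := W) (f := g) (by
    intro l hl
    obtain ⟨h1, h2, h3⟩ := hg l hl
    exact ⟨h1, h2, by rw [lev_eq]; exact h3.2⟩)
  have hyl : ∀ l, symb n y l ≠ 0 → lev μ l = m := by
    intro l hl
    rw [hys] at hl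
    rw [lev_eq]
    exact (hg l hl).2.2.1
  have hyF : y ∈ Fil μ n (m + 1) := by
    intro l hl
    by_contra h
    have := hyl l h
    omega
  refine ⟨y, hyF, hy, ?_⟩
  intro l hl
  rw [symb_sub, H.all hyF hl, hys, ← hfg]
  simp only [hf]
  split_ifs with h
  · exact sub_self _
  · rw [sub_zero]
    exact hz l (by omega)

/-- the `E_1` bound -/
theorem LeadP.exists_of_no_mon (H : LeadP p μ) {z : CobP p (n + 1)} (hW : z ∈ WtP p (n + 1) W)
    (hd : dP (n + 1) z = 0)
    (hno : ∀ r : EI (ℕ × ℕ), degM r = n + 1 → levM p (wD p) r ≠ W) :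
    ∃ y ∈ WtP p n W, z = dP n y := by
  have key : ∀ m (z : CobP p (n + 1)), z ∈ Fil μ (n + 1) m → z ∈ WtP p (n + 1) W →
      dP (n + 1) z = 0 → ∃ y ∈ WtP p n W, z = dP n y := by
    intro m
    induction m with
    | zero =>
      intro z hz _ _
      exact ⟨0, Submodule.zero_mem _, by rw [mem_Fil_zero.1 hz, map_zero]⟩
    | succ m ih =>
      intro z hz hW hd
      obtain ⟨y, _, hyW, hy⟩ := H.exists_sub_mem hz hW (by rw [hd]; exact Submodule.zero_mem _)
        (fun r h1 h2 => absurd h2 (hno r h1))
      obtain ⟨y', hy', h'⟩ := ih (z - dP n y) hy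
        (Submodule.sub_mem _ hW (dP_mem_WtP hyW)) (by rw [map_sub, hd, dP_dP, sub_zero])
      refine ⟨y + y', Submodule.add_mem _ hyW hy', ?_⟩
      rw [map_add, ← h']
      abel
  obtain ⟨m, hm⟩ := exists_mem_Fil μ z
  exact key m z hm hW hd

end Vale.Agent.P257.H632

end
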