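import Mathlib

/-!
# P257 (helper632): the algebra `E(h_v) ⊗ P(b_v)` and its operators

`EI I = Finset I × (I →₀ ℕ)` indexes the monomials; `c : EI I → k` is a (formal) linear combination.
-/

set_option linter.unusedSectionVars false

noncomputable section

namespace Vale.Agent.P257.H632

/-- An injection into `ℕ`, only used to fix the signs of the exterior algebra. -/
class HasOrd (I : Type) where
  ord : I → ℕ
  inj : Function.Injective ord

instance : HasOrd (ℕ × ℕ) where
  ord v := Nat.pair v.1 v.2
  inj := by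
    rintro ⟨a, b⟩ ⟨c, d⟩ h
    have h' : Nat.pair a b = Nat.pair c d := h
    rw [Nat.pair_eq_pair] at h'
    exact Prod.ext h'.1 h'.2

export HasOrd (ord)

variable {I : Type} [DecidableEq I] [HasOrd I] {k : Type} [CommRing k]

/-- Indices of the monomials `∏ h_v (v ∈ S) · ∏ b_v ^ β v`. -/
abbrev EI (I : Type) : Type := Finset I × (I →₀ ℕ)

/-- The sign for moving `h_v` into its place among `S`. -/
def sg (v : I) (S : Finset I) : ℤ := (-1) ^ (S.filter (fun u => ord u < ord v)).card

theorem sg_mul_self (v : I) (S : Finset I) : sg v S * sg v S = 1 := by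
  unfold sg
  rw [← mul_pow]
  simp

theorem sg_erase_self (v : I) (S : Finset I) : sg v (S.erase v) = sg v S := by
  unfold sg
  congr 2
  ext u
  simp only [Finset.mem_filter, Finset.mem_erase]
  constructor
  · rintro ⟨⟨_, h⟩, h'⟩; exact ⟨h, h'⟩
  · rintro ⟨h, h'⟩; exact ⟨⟨fun e => h'.ne (by rw [e]), h⟩, h'⟩

theorem sg_insert_self (v : I) (S : Finset I) : sg v (insert v S) = sg v S := by
  unfold sg
  congr 2
  ext u
  simp only [Finset.mem_filter, Finset.mem_insert]
  constructor
  · rintro ⟨h | h, h'⟩
    · exact absurd h' (by rw [h]; exact lt_irrefl _)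
    · exact ⟨h, h'⟩
  · rintro ⟨h, h'⟩; exact ⟨Or.inr h, h'⟩

/-- Removing `u ≠ v` changes the sign of `v` iff `u < v`. -/
theorem sg_erase {u v : I} {S : Finset I} (hu : u ∈ S) :
    sg v (S.erase u) = (if ord u < ord v then -1 else 1) * sg v S := by
  unfold sg
  split_ifs with h
  · have : (S.filter (fun u => ord u < ord v)).card = ((S.erase u).filter (fun u => ord u < ord v)).card + 1 := by
      rw [Finset.filter_erase, Finset.card_erase_of_mem (Finset.mem_filter.2 ⟨hu, h⟩)]
      have : 0 < (S.filter (fun u => ord u < ord v)).card :=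
        Finset.card_pos.2 ⟨u, Finset.mem_filter.2 ⟨hu, h⟩⟩
      omega
    rw [this, pow_succ]
    ring
  · rw [one_mul]
    congr 2
    ext w
    simp only [Finset.mem_filter, Finset.mem_erase]
    constructor
    · rintro ⟨⟨_, h1⟩, h2⟩; exact ⟨h1, h2⟩
    · rintro ⟨h1, h2⟩; exact ⟨⟨fun e => h (e ▸ h2), h1⟩, h2⟩

theorem sg_insert {u v : I} {S : Finset I} (hu : u ∉ S) :
    sg v (insert u S) = (if ord u < ord v then -1 else 1) * sg v S := by
  have h := sg_erase (u := u) (v := v) (S := insert u S) (Finset.mem_insert_self u S)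
  rw [Finset.erase_insert hu] at h
  rw [h]
  split_ifs <;> ring

/-- Exchange of two signs. -/
theorem sg_swap {u v : I} (huv : u ≠ v) :
    (if ord u < ord v then (-1 : ℤ) else 1) = -(if ord v < ord u then -1 else 1) := by
  rcases lt_trichotomy (ord u) (ord v) with h | h | h
  · rw [if_pos h, if_neg h.asymm]
  · exact absurd (HasOrd.inj h) huv
  · rw [if_neg h.asymm, if_pos h]; ring

/-- Exterior multiplication by `h_v`. -/
def lam (v : I) : (EI I → k) →ₗ[k] (EI I → k) where
  toFun c := fun e => if v ∈ e.1 then (sg v e.1 : k) * c (e.1.erase v, e.2) else 0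
  map_add' c c' := by funext e; simp only [Pi.add_apply]; split_ifs <;> ring
  map_smul' a c := by
    funext e; simp only [Pi.smul_apply, smul_eq_mul, RingHom.id_apply]; split_ifs <;> ring

/-- Replace `h_v` by `b_v`. -/
def kap (v : I) : (EI I → k) →ₗ[k] (EI I → k) where
  toFun c := fun e => if v ∉ e.1 ∧ 1 ≤ e.2 v then
    (sg v e.1 : k) * c (insert v e.1, e.2 - Finsupp.single v 1) else 0
  map_add' c c' := by funext e; simp only [Pi.add_apply]; split_ifs <;> ring
  map_smul' a c := by
    funext e; simp only [Pi.smul_apply, smul_eq_mul, RingHom.id_apply]; split_ifs <;> ring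

/-- Multiplication by `b_v`. -/
def bmul (v : I) : (EI I → k) →ₗ[k] (EI I → k) where
  toFun c := fun e => if 1 ≤ e.2 v then c (e.1, e.2 - Finsupp.single v 1) else 0
  map_add' c c' := by funext e; simp only [Pi.add_apply]; split_ifs <;> ring
  map_smul' a c := by
    funext e; simp only [Pi.smul_apply, smul_eq_mul, RingHom.id_apply]; split_ifs <;> ring

/-- Remove `h_v`. -/
def iot (v : I) : (EI I → k) →ₗ[k] (EI I → k) where
  toFun c := fun e => if v ∉ e.1 then (sg v e.1 : k) * c (insert v e.1, e.2) else 0
  map_add' c c' := by funext e; simp only [Pi.add_apply]; split_ifs <;> ring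
  map_smul' a c := by
    funext e; simp only [Pi.smul_apply, smul_eq_mul, RingHom.id_apply]; split_ifs <;> ring

/-- Replace `b_v` by `h_v`. -/
def tau (v : I) : (EI I → k) →ₗ[k] (EI I → k) where
  toFun c := fun e => if v ∈ e.1 then
    (sg v e.1 : k) * c (e.1.erase v, e.2 + Finsupp.single v 1) else 0
  map_add' c c' := by funext e; simp only [Pi.add_apply]; split_ifs <;> ring
  map_smul' a c := by
    funext e; simp only [Pi.smul_apply, smul_eq_mul, RingHom.id_apply]; split_ifs <;> ring

theorem lam_apply (v : I) (c : EI I → k) (e : EI I) :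
    lam v c e = if v ∈ e.1 then (sg v e.1 : k) * c (e.1.erase v, e.2) else 0 := rfl
theorem kap_apply (v : I) (c : EI I → k) (e : EI I) :
    kap v c e = if v ∉ e.1 ∧ 1 ≤ e.2 v then
      (sg v e.1 : k) * c (insert v e.1, e.2 - Finsupp.single v 1) else 0 := rfl
theorem bmul_apply (v : I) (c : EI I → k) (e : EI I) :
    bmul v c e = if 1 ≤ e.2 v then c (e.1, e.2 - Finsupp.single v 1) else 0 := rfl
theorem iot_apply (v : I) (c : EI I → k) (e : EI I) :
    iot v c e = if v ∉ e.1 then (sg v e.1 : k) * c (insert v e.1, e.2) else 0 := rfl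
theorem tau_apply (v : I) (c : EI I → k) (e : EI I) :
    tau v c e = if v ∈ e.1 then
      (sg v e.1 : k) * c (e.1.erase v, e.2 + Finsupp.single v 1) else 0 := rfl

section car

variable {u v : I} (c : EI I → k)

theorem lam_lam_self : lam v (lam v c) = 0 := by
  funext ⟨S, β⟩
  simp [lam_apply]

theorem kap_kap_self : kap v (kap v c) = 0 := by
  funext ⟨S, β⟩
  simp [kap_apply]

theorem lam_lam (huv : u ≠ v) : lam u (lam v c) + lam v (lam u c) = 0 := by
  funext ⟨S, β⟩
  simp only [lam_apply, Pi.add_apply, Pi.zero_apply, Finset.mem_erase]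
  by_cases hu : u ∈ S
  · by_cases hv : v ∈ S
    · simp only [hu, hv, huv, huv.symm, ne_eq, not_false_eq_true, and_self, if_true,
        sg_erase hu, sg_erase hv, Finset.erase_right_comm (a := u) (b := v)]
      have := sg_swap huv
      rw [this]
      push_cast
      ring
    · simp [hu, hv]
  · simp [hu]

theorem kap_kap (huv : u ≠ v) : kap u (kap v c) + kap v (kap u c) = 0 := by
  funext ⟨S, β⟩
  simp only [kap_apply, Pi.add_apply, Pi.zero_apply, Finset.mem_insert]
  have e1 : ((β - Finsupp.single u 1 : I →₀ ℕ)) v = β v := by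
    rw [Finsupp.tsub_apply, Finsupp.single_eq_of_ne huv.symm, Nat.sub_zero]
  have e2 : ((β - Finsupp.single v 1 : I →₀ ℕ)) u = β u := by
    rw [Finsupp.tsub_apply, Finsupp.single_eq_of_ne huv, Nat.sub_zero]
  by_cases hu : u ∈ S
  · simp [hu]
  by_cases hv : v ∈ S
  · simp [hv]
  by_cases hbu : 1 ≤ β u
  · by_cases hbv : 1 ≤ β v
    · rw [if_pos ⟨hu, hbu⟩, if_pos ⟨not_or.2 ⟨huv.symm, hv⟩, e1.symm ▸ hbv⟩, if_pos ⟨hv, hbv⟩,
        if_pos ⟨not_or.2 ⟨huv, hu⟩, e2.symm ▸ hbu⟩, sg_insert hu, sg_insert hv,
        Finset.insert_comm v u S, tsub_right_comm, sg_swap huv]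
      push_cast
      ring
    · rw [if_pos ⟨hu, hbu⟩, if_neg (fun h => hbv (e1 ▸ h.2)), if_neg (fun h => hbv h.2)]
      ring
  · rw [if_neg (fun h => hbu h.2)]
    by_cases hbv : 1 ≤ β v
    · rw [if_pos ⟨hv, hbv⟩, if_neg (fun h => hbu (e2 ▸ h.2))]
      ring
    · rw [if_neg (fun h => hbv h.2), add_zero]

theorem lam_kap (huv : u ≠ v) : lam u (kap v c) + kap v (lam u c) = 0 := by
  funext ⟨S, β⟩
  simp only [lam_apply, kap_apply, Pi.add_apply, Pi.zero_apply, Finset.mem_insert, Finset.mem_erase]
  by_cases hu : u ∈ S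
  · by_cases hv : v ∈ S
    · simp [hu, hv, huv.symm]
    · by_cases hbv : 1 ≤ β v
      · simp only [hu, hv, hbv, huv, huv.symm, ne_eq, not_false_eq_true, true_and, and_self,
          if_true, or_true, sg_erase hu, sg_insert hv, false_and]
        rw [Finset.erase_insert_of_ne huv.symm, sg_swap huv]
        push_cast
        ring
      · simp [hbv]
  · simp [hu, huv]

theorem lam_kap_self : lam v (kap v c) + kap v (lam v c) = bmul v c := by
  funext ⟨S, β⟩
  simp only [lam_apply, kap_apply, bmul_apply, Pi.add_apply]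
  by_cases hv : v ∈ S
  · by_cases hb : 1 ≤ β v
    · simp only [hv, hb, if_true, Finset.mem_erase, ne_eq, not_true_eq_false, false_and,
        not_false_eq_true, true_and, not_true_eq_false, if_false, add_zero, sg_erase_self,
        Finset.insert_erase hv]
      rw [← mul_assoc, ← Int.cast_mul, sg_mul_self]
      simp
    · simp [hb]
  · by_cases hb : 1 ≤ β v
    · simp only [hv, hb, if_true, if_false, zero_add, not_false_eq_true, true_and,
        Finset.mem_insert, or_false, sg_insert_self, Finset.erase_insert hv]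
      rw [← mul_assoc, ← Int.cast_mul, sg_mul_self]
      simp
    · simp [hb, hv]

theorem lam_iot (huv : u ≠ v) : lam u (iot v c) + iot v (lam u c) = 0 := by
  funext ⟨S, β⟩
  simp only [lam_apply, iot_apply, Pi.add_apply, Pi.zero_apply, Finset.mem_insert, Finset.mem_erase]
  by_cases hu : u ∈ S
  · by_cases hv : v ∈ S
    · simp [hu, hv, huv.symm]
    · simp only [hu, hv, huv, huv.symm, ne_eq, not_false_eq_true, and_self,
        if_true, or_true, sg_erase hu, sg_insert hv, false_and, and_false]
      rw [Finset.erase_insert_of_ne huv.symm, sg_swap huv]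
      push_cast
      ring
  · simp [hu, huv]

theorem lam_tau (huv : u ≠ v) : lam u (tau v c) + tau v (lam u c) = 0 := by
  funext ⟨S, β⟩
  simp only [lam_apply, tau_apply, Pi.add_apply, Pi.zero_apply, Finset.mem_erase]
  by_cases hu : u ∈ S
  · by_cases hv : v ∈ S
    · simp only [hu, hv, huv, huv.symm, ne_eq, not_false_eq_true, and_self, if_true,
        sg_erase hu, sg_erase hv, Finset.erase_right_comm (a := u) (b := v)]
      have := sg_swap huv
      rw [this]
      push_cast
      ring
    · simp [hu, hv]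
  · simp [hu]

theorem kap_iot (huv : u ≠ v) : kap u (iot v c) + iot v (kap u c) = 0 := by
  funext ⟨S, β⟩
  simp only [kap_apply, iot_apply, Pi.add_apply, Pi.zero_apply, Finset.mem_insert]
  by_cases hu : u ∈ S
  · simp [hu]
  by_cases hv : v ∈ S
  · simp [hv]
  by_cases hbu : 1 ≤ β u
  · simp only [hu, hv, hbu, huv, huv.symm, or_self, not_false_eq_true, and_self,
        if_true, sg_insert hu, sg_insert hv]
    rw [Finset.insert_comm v u S, sg_swap huv]
    push_cast
    ring
  · simp [hbu]

theorem kap_tau (huv : u ≠ v) : kap u (tau v c) + tau v (kap u c) = 0 := by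
  funext ⟨S, β⟩
  simp only [kap_apply, tau_apply, Pi.add_apply, Pi.zero_apply, Finset.mem_insert, Finset.mem_erase]
  have e1 : ((β + Finsupp.single v 1 : I →₀ ℕ)) u = β u := by
    rw [Finsupp.add_apply, Finsupp.single_eq_of_ne huv, add_zero]
  by_cases hv : v ∈ S
  · by_cases hu : u ∈ S
    · simp [hu, huv]
    · by_cases hbu : 1 ≤ β u
      · have e2 : β - Finsupp.single u 1 + Finsupp.single v 1 =
            β + Finsupp.single v 1 - Finsupp.single u 1 := by
          ext w
          simp only [Finsupp.add_apply, Finsupp.tsub_apply]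
          by_cases hw : w = u
          · subst hw
            rw [Finsupp.single_eq_same, Finsupp.single_eq_of_ne huv]
            omega
          · rw [Finsupp.single_eq_of_ne (a := u) hw]
            omega
        rw [if_pos ⟨hu, hbu⟩, if_pos (Or.inr hv), if_pos hv, if_pos ⟨fun h => hu h.2, e1.symm ▸ hbu⟩,
          sg_insert hu, sg_erase hv, e2, Finset.erase_insert_of_ne huv, sg_swap huv]
        push_cast
        ring
      · rw [if_neg (fun h => hbu h.2), if_pos hv, if_neg (fun h => hbu (e1 ▸ h.2))]
        simp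
  · simp [hv, huv.symm]

end car

end Vale.Agent.P257.H632
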