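import Vale.Agent.P257.H632.Defs

/-!
# P257 (helper632): the word complex, formal part
-/

set_option linter.unusedSectionVars false

noncomputable section

namespace Vale.Agent.P257.H632

section Words

variable {I : Type} [DecidableEq I] [HasOrd I] {k : Type} [CommRing k]
variable {M N : Type} [AddCommGroup M] [AddCommGroup N]

@[simp] theorem dC_nil (f : List (I →₀ ℕ) → M) : dC [] f = 0 := rfl
@[simp] theorem dC_single (y : I →₀ ℕ) (f : List (I →₀ ℕ) → M) :
    dC [y] f = if y = 0 then f [] else 0 := rfl
@[simp] theorem dC_cons (y m : I →₀ ℕ) (l : List (I →₀ ℕ)) (f : List (I →₀ ℕ) → M) :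
    dC (y :: m :: l) f = f ((y + m) :: l) - dC (m :: l) (fun l' => f (y :: l')) := rfl

theorem dC_congr {l : List (I →₀ ℕ)} {f g : List (I →₀ ℕ) → M}
    (h : ∀ l' : List (I →₀ ℕ), l'.length + 1 = l.length → f l' = g l') : dC l f = dC l g := by
  induction l generalizing f g with
  | nil => rfl
  | cons y l ih =>
    cases l with
    | nil => rw [dC_single, dC_single, h [] rfl]
    | cons m l =>
      rw [dC_cons, dC_cons, h ((y + m) :: l) rfl]
      congr 1
      exact ih fun l' hl' => h _ (by simp only [List.length_cons] at hl' ⊢; omega)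

theorem dC_zero' (l : List (I →₀ ℕ)) : dC l (fun _ => (0 : M)) = 0 := by
  induction l with
  | nil => rfl
  | cons y l ih =>
    cases l with
    | nil => simp
    | cons m l => rw [dC_cons, ih, sub_zero]

theorem dC_add (l : List (I →₀ ℕ)) (f g : List (I →₀ ℕ) → M) :
    dC l (fun l' => f l' + g l') = dC l f + dC l g := by
  induction l generalizing f g with
  | nil => simp
  | cons y l ih =>
    cases l with
    | nil => simp only [dC_single]; split_ifs <;> simp
    | cons m l =>
      rw [dC_cons, dC_cons, dC_cons, ih (fun l' => f (y :: l')) (fun l' => g (y :: l'))]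
      abel

theorem dC_sub (l : List (I →₀ ℕ)) (f g : List (I →₀ ℕ) → M) :
    dC l (fun l' => f l' - g l') = dC l f - dC l g := by
  have h := dC_add l (fun l' => f l' - g l') g
  simp only [sub_add_cancel] at h
  rw [h, add_sub_cancel_right]

theorem dC_map (φ : M →+ N) (l : List (I →₀ ℕ)) (f : List (I →₀ ℕ) → M) :
    dC l (fun l' => φ (f l')) = φ (dC l f) := by
  induction l generalizing f with
  | nil => simp
  | cons y l ih =>
    cases l with
    | nil => simp only [dC_single]; split_ifs <;> simp
    | cons m l => rw [dC_cons, dC_cons, ih, map_sub]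

theorem dC_sum {ι : Type} (s : Finset ι) (l : List (I →₀ ℕ)) (f : ι → List (I →₀ ℕ) → M) :
    dC l (fun l' => ∑ i ∈ s, f i l') = ∑ i ∈ s, dC l (f i) := by
  classical
  induction s using Finset.induction_on with
  | empty => simp [dC_zero']
  | insert a s ha ih =>
    rw [Finset.sum_insert ha, ← ih, ← dC_add]
    congr 1
    funext l'
    rw [Finset.sum_insert ha]

theorem dC_dC (l : List (I →₀ ℕ)) (f : List (I →₀ ℕ) → M) : dC l (fun l' => dC l' f) = 0 := by
  induction l generalizing f with
  | nil => rfl
  | cons y l ih =>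
    cases l with
    | nil => simp
    | cons m l =>
      cases l with
      | nil =>
        rw [dC_cons, dC_single, dC_single, dC_single]
        by_cases hm : m = 0
        · subst hm; simp
        · rw [if_neg hm, if_neg, sub_zero]
          intro h
          apply hm
          ext i
          have := DFunLike.congr_fun h i
          simp only [Finsupp.add_apply, Finsupp.zero_apply] at this ⊢
          omega
      | cons m' l =>
        rw [dC_cons, dC_cons]
        have h1 : dC (m :: m' :: l) (fun l' => dC (y :: l') f) =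
            dC (m :: m' :: l) (fun l' => (match l' with
              | [] => 0
              | a :: b => f ((y + a) :: b)) - dC l' (fun l'' => f (y :: l''))) := by
          apply dC_congr
          intro l' hl'
          cases l' with
          | nil => simp at hl'
          | cons a b => rfl
        rw [h1, dC_sub, ih, sub_zero, dC_cons, add_assoc]
        simp

/-- insertion of `0` -/
def hh (f : List (I →₀ ℕ) → M) : List (I →₀ ℕ) → M := fun l => f (0 :: l)

theorem hh_apply (f : List (I →₀ ℕ) → M) (l : List (I →₀ ℕ)) : hh f l = f (0 :: l) := rfl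

/-- the homotopy `h δ + δ h = 1` -/
theorem dC_zero_cons (m : I →₀ ℕ) (l : List (I →₀ ℕ)) (f : List (I →₀ ℕ) → M) :
    dC (0 :: m :: l) f + dC (m :: l) (hh f) = f (m :: l) := by
  rw [dC_cons, zero_add]
  exact sub_add_cancel _ _

end Words

section Col

variable {I : Type} [DecidableEq I] [HasOrd I] {k : Type} [CommRing k]

/-- the part in the variable `v` of the vertical differential -/
def Dv (p : ℕ) (v : I) (G : (I →₀ ℕ) → EI I → k) (y : I →₀ ℕ) : EI I → k :=
  lam v (G (y + Finsupp.single v 1)) + kap v (G (y + Finsupp.single v (p - 1)))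

/-- the contraction in the variable `v` -/
def Cv (p : ℕ) (u : I) (G : (I →₀ ℕ) → EI I → k) (y : I →₀ ℕ) : EI I → k :=
  (if 1 ≤ y u ∧ y u < p then iot u (G (y - Finsupp.single u 1)) else 0) +
  (if y u = p - 1 then tau u (G (y - Finsupp.single u (p - 1))) else 0)

/-- `G` lives on reduced exponents -/
def RedF (p : ℕ) (G : (I →₀ ℕ) → EI I → k) : Prop := ∀ y, (∃ v, p ≤ y v) → G y = 0

variable {p : ℕ} {u v : I} (G : (I →₀ ℕ) → EI I → k) (y : I →₀ ℕ)

theorem Dv_Dv (huv : u ≠ v) : Dv p u (Dv p v G) y + Dv p v (Dv p u G) y = 0 := by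
  simp only [Dv, map_add]
  have e1 : y + Finsupp.single v 1 + Finsupp.single u 1 =
    y + Finsupp.single u 1 + Finsupp.single v 1 := add_right_comm _ _ _
  have e2 : y + Finsupp.single v 1 + Finsupp.single u (p - 1) =
    y + Finsupp.single u (p - 1) + Finsupp.single v 1 := add_right_comm _ _ _
  have e3 : y + Finsupp.single v (p - 1) + Finsupp.single u 1 =
    y + Finsupp.single u 1 + Finsupp.single v (p - 1) := add_right_comm _ _ _
  have e4 : y + Finsupp.single v (p - 1) + Finsupp.single u (p - 1) =
    y + Finsupp.single u (p - 1) + Finsupp.single v (p - 1) := add_right_comm _ _ _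
  rw [e1, e2, e3, e4]
  have a1 := lam_lam (G (y + Finsupp.single u 1 + Finsupp.single v 1)) huv
  have a2 := lam_kap (G (y + Finsupp.single u 1 + Finsupp.single v (p - 1))) huv
  have a3 := lam_kap (G (y + Finsupp.single u (p - 1) + Finsupp.single v 1)) huv.symm
  have a4 := kap_kap (G (y + Finsupp.single u (p - 1) + Finsupp.single v (p - 1))) huv
  linear_combination (exp := 1) a1 + a2 + a3 + a4

theorem Dv_self (hp : 0 < p) (hG : RedF p G) : Dv p v (Dv p v G) y = 0 := by
  have h1 : y + Finsupp.single v 1 + Finsupp.single v (p - 1) = y + Finsupp.single v p := by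
    rw [add_assoc, ← Finsupp.single_add]
    congr 2
    omega
  have h2 : y + Finsupp.single v (p - 1) + Finsupp.single v 1 = y + Finsupp.single v p := by
    rw [add_assoc, ← Finsupp.single_add]
    congr 2
    omega
  have h3 : G (y + Finsupp.single v p) = 0 := hG _ ⟨v, by simp⟩
  simp only [Dv, map_add, h1, h2, h3, map_zero, lam_lam_self, kap_kap_self, add_zero]

theorem iot_kap_self (c : EI I → k) : iot v (kap v c) = 0 := by
  funext e
  rw [iot_apply, kap_apply]
  simp

theorem kap_iot_self (c : EI I → k) : kap v (iot v c) = 0 := by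
  funext e
  rw [kap_apply, iot_apply]
  simp

theorem lam_tau_self (c : EI I → k) : lam v (tau v c) = 0 := by
  funext e
  rw [lam_apply, tau_apply]
  simp

theorem tau_lam_self (c : EI I → k) : tau v (lam v c) = 0 := by
  funext e
  rw [tau_apply, lam_apply]
  simp

theorem lam_iot_self (c : EI I → k) (e : EI I) :
    lam v (iot v c) e = if v ∈ e.1 then c e else 0 := by
  obtain ⟨S, β⟩ := e
  rw [lam_apply, iot_apply]
  by_cases h : v ∈ S
  · simp only [h, if_true, Finset.mem_erase, ne_eq, not_true_eq_false, false_and,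
      not_false_eq_true, sg_erase_self, Finset.insert_erase h]
    rw [← mul_assoc, ← Int.cast_mul, sg_mul_self]
    simp
  · simp [h]

theorem iot_lam_self (c : EI I → k) (e : EI I) :
    iot v (lam v c) e = if v ∈ e.1 then 0 else c e := by
  obtain ⟨S, β⟩ := e
  rw [iot_apply, lam_apply]
  by_cases h : v ∈ S
  · simp [h]
  · simp only [h, if_false, not_false_eq_true, if_true, Finset.mem_insert_self, sg_insert_self,
      Finset.erase_insert h]
    rw [← mul_assoc, ← Int.cast_mul, sg_mul_self]
    simp

theorem tau_kap_self (c : EI I → k) (e : EI I) :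
    tau v (kap v c) e = if v ∈ e.1 then c e else 0 := by
  obtain ⟨S, β⟩ := e
  rw [tau_apply, kap_apply]
  by_cases h : v ∈ S
  · simp only [h, if_true, Finset.mem_erase, ne_eq, not_true_eq_false, false_and,
      not_false_eq_true, sg_erase_self, Finset.insert_erase h, true_and, Finsupp.add_apply,
      Finsupp.single_eq_same, Nat.le_add_left, add_tsub_cancel_right]
    rw [← mul_assoc, ← Int.cast_mul, sg_mul_self]
    simp
  · simp [h]

theorem kap_tau_self (c : EI I → k) (e : EI I) :
    kap v (tau v c) e = if v ∉ e.1 ∧ 1 ≤ e.2 v then c e else 0 := by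
  obtain ⟨S, β⟩ := e
  rw [kap_apply, tau_apply]
  by_cases h : v ∈ S
  · simp [h]
  · by_cases hb : 1 ≤ β v
    · have e1 : β - Finsupp.single v 1 + Finsupp.single v 1 = β := by
        ext w
        rw [Finsupp.add_apply, Finsupp.tsub_apply]
        by_cases hw : w = v
        · subst hw; rw [Finsupp.single_eq_same]; omega
        · rw [Finsupp.single_eq_of_ne hw]; omega
      simp only [h, hb, not_false_eq_true, and_self, if_true, Finset.mem_insert_self,
        sg_insert_self, Finset.erase_insert h, e1]
      rw [← mul_assoc, ← Int.cast_mul, sg_mul_self]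
      simp
    · simp [h, hb]

theorem single_swap {a b : ℕ} (huv : u ≠ v) (y : I →₀ ℕ) :
    y - Finsupp.single u a + Finsupp.single v b = y + Finsupp.single v b - Finsupp.single u a := by
  ext w
  simp only [Finsupp.add_apply, Finsupp.tsub_apply]
  by_cases hw : w = u
  · subst hw
    rw [Finsupp.single_eq_same, Finsupp.single_eq_of_ne huv]
    omega
  · rw [Finsupp.single_eq_of_ne (a := u) hw]
    omega

theorem Dv_Cv (huv : u ≠ v) : Dv p v (Cv p u G) y + Cv p u (Dv p v G) y = 0 := by
  have h1 : ((y + Finsupp.single v 1 : I →₀ ℕ)) u = y u := by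
    rw [Finsupp.add_apply, Finsupp.single_eq_of_ne huv, add_zero]
  have h2 : ((y + Finsupp.single v (p - 1) : I →₀ ℕ)) u = y u := by
    rw [Finsupp.add_apply, Finsupp.single_eq_of_ne huv, add_zero]
  simp only [Dv, Cv, h1, h2, single_swap huv]
  have a1 := lam_iot (G (y + Finsupp.single v 1 - Finsupp.single u 1)) huv.symm
  have a2 := lam_tau (G (y + Finsupp.single v 1 - Finsupp.single u (p - 1))) huv.symm
  have a3 := kap_iot (G (y + Finsupp.single v (p - 1) - Finsupp.single u 1)) huv.symm
  have a4 := kap_tau (G (y + Finsupp.single v (p - 1) - Finsupp.single u (p - 1))) huv.symm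
  split_ifs
  · simp only [map_add]
    linear_combination (exp := 1) a1 + a2 + a3 + a4
  · simp only [map_add, add_zero]
    linear_combination (exp := 1) a1 + a3
  · simp only [map_add, zero_add]
    linear_combination (exp := 1) a2 + a4
  · simp

theorem Dv_Cv_self (hp : 2 ≤ p) (hy : y u < p) (e : EI I)
    (he : y u ≠ 0 ∨ u ∈ e.1 ∨ 1 ≤ e.2 u) :
    Dv p u (Cv p u G) y e + Cv p u (Dv p u G) y e = G y e := by
  have c1 : ((y + Finsupp.single u 1 : I →₀ ℕ)) u = y u + 1 := by simp
  have c2 : ((y + Finsupp.single u (p - 1) : I →₀ ℕ)) u = y u + (p - 1) := by simp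
  have s1 : y + Finsupp.single u 1 - Finsupp.single u 1 = y := add_tsub_cancel_right _ _
  have s2 : y + Finsupp.single u (p - 1) - Finsupp.single u (p - 1) = y :=
    add_tsub_cancel_right _ _
  simp only [Dv, Cv, c1, c2, s1, s2, Pi.add_apply]
  have t1 : lam u ((if 1 ≤ y u + 1 ∧ y u + 1 < p then iot u (G y) else 0) +
      (if y u + 1 = p - 1 then tau u (G (y + Finsupp.single u 1 - Finsupp.single u (p - 1)))
        else 0)) e = if y u + 1 < p ∧ u ∈ e.1 then G y e else 0 := by
    rw [map_add, Pi.add_apply]
    have h2 : lam u (if y u + 1 = p - 1 then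
        tau u (G (y + Finsupp.single u 1 - Finsupp.single u (p - 1))) else 0) = 0 := by
      split_ifs
      · rw [lam_tau_self]
      · rw [map_zero]
    rw [h2, Pi.zero_apply, add_zero]
    by_cases h : y u + 1 < p
    · rw [if_pos ⟨by omega, h⟩, lam_iot_self]
      simp only [h, true_and]
    · rw [if_neg (fun h' => h h'.2), if_neg (fun h' => h h'.1), map_zero, Pi.zero_apply]
  have t2 : kap u ((if 1 ≤ y u + (p - 1) ∧ y u + (p - 1) < p then
        iot u (G (y + Finsupp.single u (p - 1) - Finsupp.single u 1)) else 0) +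
      (if y u + (p - 1) = p - 1 then tau u (G y) else 0)) e =
      if y u = 0 ∧ u ∉ e.1 ∧ 1 ≤ e.2 u then G y e else 0 := by
    rw [map_add, Pi.add_apply]
    have h2 : kap u (if 1 ≤ y u + (p - 1) ∧ y u + (p - 1) < p then
        iot u (G (y + Finsupp.single u (p - 1) - Finsupp.single u 1)) else 0) = 0 := by
      split_ifs
      · rw [kap_iot_self]
      · rw [map_zero]
    rw [h2, Pi.zero_apply, zero_add]
    by_cases h : y u = 0
    · rw [if_pos (by omega), kap_tau_self]
      simp only [h, true_and]
    · rw [if_neg (by omega), if_neg (fun h' => h h'.1), map_zero, Pi.zero_apply]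
  have t3 : (if 1 ≤ y u ∧ y u < p then iot u (lam u (G (y - Finsupp.single u 1 +
        Finsupp.single u 1)) + kap u (G (y - Finsupp.single u 1 + Finsupp.single u (p - 1))))
        else (0 : EI I → k)) e = if 1 ≤ y u ∧ u ∉ e.1 then G y e else 0 := by
    by_cases h : 1 ≤ y u
    · have h3 : y - Finsupp.single u 1 + Finsupp.single u 1 = y := by
        ext w
        rw [Finsupp.add_apply, Finsupp.tsub_apply]
        by_cases hw : w = u
        · subst hw; rw [Finsupp.single_eq_same]; omega
        · rw [Finsupp.single_eq_of_ne hw]; omega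
      rw [if_pos ⟨h, hy⟩, map_add, iot_kap_self, add_zero, h3, iot_lam_self]
      by_cases hu : u ∈ e.1 <;> simp [h, hu]
    · rw [if_neg (fun h' => h h'.1), if_neg (fun h' => h h'.1), Pi.zero_apply]
  have t4 : (if y u = p - 1 then tau u (lam u (G (y - Finsupp.single u (p - 1) +
        Finsupp.single u 1)) + kap u (G (y - Finsupp.single u (p - 1) +
        Finsupp.single u (p - 1)))) else (0 : EI I → k)) e =
        if y u = p - 1 ∧ u ∈ e.1 then G y e else 0 := by
    by_cases h : y u = p - 1
    · have h3 : y - Finsupp.single u (p - 1) + Finsupp.single u (p - 1) = y := by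
        ext w
        rw [Finsupp.add_apply, Finsupp.tsub_apply]
        by_cases hw : w = u
        · subst hw; rw [Finsupp.single_eq_same]; omega
        · rw [Finsupp.single_eq_of_ne hw]; omega
      rw [if_pos h, map_add, tau_lam_self, zero_add, h3, tau_kap_self]
      simp only [h, true_and]
    · rw [if_neg h, if_neg (fun h' => h h'.1), Pi.zero_apply]
  rw [t1, t2, t3, t4]
  by_cases hu : u ∈ e.1
  · by_cases h1 : y u + 1 < p
    · have h2 : y u ≠ p - 1 := by omega
      simp [hu, h1, h2]
    · have h2 : y u = p - 1 := by omega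
      have h3 : ¬ (p - 1 + 1 < p) := by omega
      simp [hu, h2, h3]
  · by_cases h0 : y u = 0
    · have hb : 1 ≤ e.2 u := by
        rcases he with h | h | h
        · exact absurd h0 h
        · exact absurd h hu
        · exact h
      simp [hu, h0, hb]
    · have h1 : 1 ≤ y u := by omega
      simp [hu, h0, h1]

end Col

section Glob

variable {I : Type} [DecidableEq I] [HasOrd I] {k : Type} [CommRing k]

/-- the vertical differential -/
def pd (p : ℕ) (T : Finset I) (F : List (I →₀ ℕ) → EI I → k) : List (I →₀ ℕ) → EI I → k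
  | [] => 0
  | y :: l => ∑ v ∈ T, Dv p v (fun y' => F (y' :: l)) y

variable {p : ℕ} {T : Finset I}

theorem pd_cons (F : List (I →₀ ℕ) → EI I → k) (y : I →₀ ℕ) (l : List (I →₀ ℕ)) :
    pd p T F (y :: l) = ∑ v ∈ T, (lam v (F ((y + Finsupp.single v 1) :: l)) +
      kap v (F ((y + Finsupp.single v (p - 1)) :: l))) := rfl

theorem Ph_eq (F : List (I →₀ ℕ) → EI I → k) (l : List (I →₀ ℕ)) :
    Ph p T F l = pd p T F (0 :: l) := by
  rw [pd_cons, Ph]
  simp only [zero_add]

theorem pd_congr {F G : List (I →₀ ℕ) → EI I → k} {l : List (I →₀ ℕ)}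
    (h : ∀ l' : List (I →₀ ℕ), l'.length = l.length → l' ≠ [] → F l' = G l') :
    pd p T F l = pd p T G l := by
  cases l with
  | nil => rfl
  | cons y l =>
    rw [pd_cons, pd_cons]
    refine Finset.sum_congr rfl fun v _ => ?_
    rw [h _ (by simp) (by simp), h _ (by simp) (by simp)]

theorem pd_sub (F G : List (I →₀ ℕ) → EI I → k) (l : List (I →₀ ℕ)) :
    pd p T (fun l => F l - G l) l = pd p T F l - pd p T G l := by
  cases l with
  | nil => simp [pd]
  | cons y l =>
    rw [pd_cons, pd_cons, pd_cons, ← Finset.sum_sub_distrib]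
    refine Finset.sum_congr rfl fun v _ => ?_
    simp only [map_sub]
    abel

theorem add_single_ne_zero (y : I →₀ ℕ) (v : I) {a : ℕ} (ha : a ≠ 0) :
    y + Finsupp.single v a ≠ 0 := by
  intro h
  have := DFunLike.congr_fun h v
  simp only [Finsupp.add_apply, Finsupp.single_eq_same, Finsupp.zero_apply] at this
  omega

theorem dC_lin (φ : (EI I → k) →ₗ[k] (EI I → k)) (l : List (I →₀ ℕ))
    (f : List (I →₀ ℕ) → EI I → k) : dC l (fun l' => φ (f l')) = φ (dC l f) :=
  dC_map φ.toAddMonoidHom l f

/-- the two differentials commute -/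
theorem dC_pd (hp : 2 ≤ p) (F : List (I →₀ ℕ) → EI I → k) (l : List (I →₀ ℕ)) :
    dC l (pd p T F) = pd p T (fun l' => dC l' F) l := by
  cases l with
  | nil => rfl
  | cons y l =>
    cases l with
    | nil =>
      rw [dC_single, pd_cons]
      simp only [dC_single, if_neg (add_single_ne_zero y _ one_ne_zero),
        if_neg (add_single_ne_zero y _ (show p - 1 ≠ 0 by omega)), map_zero, add_zero,
        Finset.sum_const_zero]
      split_ifs <;> rfl
    | cons m l =>
      rw [dC_cons, pd_cons, pd_cons]
      simp only [pd_cons, dC_cons]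
      rw [dC_sum, ← Finset.sum_sub_distrib]
      refine Finset.sum_congr rfl fun v _ => ?_
      rw [dC_add, dC_lin, dC_lin]
      simp only [map_sub, add_right_comm y m]
      abel

/-- `F` lives on words whose first letter is reduced -/
def RedL (p : ℕ) (F : List (I →₀ ℕ) → EI I → k) : Prop :=
  ∀ l, RedF p (fun y => F (y :: l))

theorem pd_pd (hp : 0 < p) {F : List (I →₀ ℕ) → EI I → k} (hF : RedL p F) (l : List (I →₀ ℕ)) :
    pd p T (pd p T F) l = 0 := by
  cases l with
  | nil => rfl
  | cons y l =>
    have h1 : pd p T (pd p T F) (y :: l) =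
        ∑ u ∈ T, ∑ v ∈ T, Dv p u (Dv p v (fun y' => F (y' :: l))) y := by
      rw [pd_cons]
      refine Finset.sum_congr rfl fun u _ => ?_
      rw [pd_cons, pd_cons, map_sum, map_sum, ← Finset.sum_add_distrib]
      rfl
    rw [h1, ← Finset.sum_product']
    refine Finset.sum_involution (fun ab _ => (ab.2, ab.1)) ?_ ?_ ?_ ?_
    · rintro ⟨a, b⟩ -
      rcases eq_or_ne a b with rfl | hab
      · rw [Dv_self _ _ hp (hF l), add_zero]
      · exact Dv_Dv _ _ hab
    · rintro ⟨a, b⟩ - h h'
      apply h
      obtain rfl : b = a := congrArg Prod.fst h'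
      exact Dv_self _ _ hp (hF l)
    · rintro ⟨a, b⟩ h
      rw [Finset.mem_product] at h ⊢
      exact ⟨h.2, h.1⟩
    · rintro ⟨a, b⟩ h
      rfl

end Glob

end Vale.Agent.P257.H632

end
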