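import Vale.Agent.P257.H632.Words

/-!
# P257 (helper632): gradings of the word complex; the functional `Θ` kills boundaries
-/

set_option linter.unusedSectionVars false

noncomputable section

namespace Vale.Agent.P257.H632

variable {I : Type} [DecidableEq I] [HasOrd I] {k : Type} [CommRing k] {p : ℕ} {T : Finset I}

/-- the digit vector of a monomial: `h_v` counts `1`, `b_v` counts `p` -/
def dg (p : ℕ) (e : EI I) : I →₀ ℕ := ∑ v ∈ e.1, Finsupp.single v 1 + p • e.2

theorem dg_lam {v : I} {e : EI I} (h : v ∈ e.1) :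
    Finsupp.single v 1 + dg p (e.1.erase v, e.2) = dg p e := by
  rw [dg, dg, ← add_assoc]
  congr 1
  exact Finset.add_sum_erase e.1 (fun v => Finsupp.single v 1) h

theorem dg_iot {v : I} {e : EI I} (h : v ∉ e.1) :
    dg p (insert v e.1, e.2) = Finsupp.single v 1 + dg p e := by
  rw [dg, dg, Finset.sum_insert h, add_assoc]

theorem sub_add_single {v : I} {β : I →₀ ℕ} (h : 1 ≤ β v) :
    β - Finsupp.single v 1 + Finsupp.single v 1 = β := by
  ext w
  rw [Finsupp.add_apply, Finsupp.tsub_apply]
  by_cases hw : w = v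
  · subst hw; rw [Finsupp.single_eq_same]; omega
  · rw [Finsupp.single_eq_of_ne hw]; omega

theorem dg_kap (hp : 1 ≤ p) {v : I} {e : EI I} (h : v ∉ e.1) (h' : 1 ≤ e.2 v) :
    Finsupp.single v (p - 1) + dg p (insert v e.1, e.2 - Finsupp.single v 1) = dg p e := by
  rw [dg_iot (e := (e.1, e.2 - Finsupp.single v 1)) h, ← add_assoc, ← Finsupp.single_add]
  rw [dg, dg]
  have h1 : p • e.2 = p • (e.2 - Finsupp.single v 1) + Finsupp.single v p := by
    conv_lhs => rw [← sub_add_single h']
    rw [smul_add, Finsupp.smul_single, smul_eq_mul, mul_one]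
  rw [h1, show p - 1 + 1 = p by omega]
  simp only
  abel

theorem dg_tau (hp : 1 ≤ p) {v : I} {e : EI I} (h : v ∈ e.1) :
    dg p (e.1.erase v, e.2 + Finsupp.single v 1) = Finsupp.single v (p - 1) + dg p e := by
  have h1 := dg_kap (p := p) hp (v := v) (e := (e.1.erase v, e.2 + Finsupp.single v 1))
    (Finset.notMem_erase v e.1) (by simp)
  rw [← h1]
  simp only [Finset.insert_erase h, add_tsub_cancel_right]

theorem degM_lam {v : I} {e : EI I} (h : v ∈ e.1) :
    degM (e.1.erase v, e.2) + 1 = degM e := by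
  have := Finset.card_pos.2 ⟨v, h⟩
  simp only [degM, Finset.card_erase_of_mem h]
  omega

theorem degM_iot {v : I} {e : EI I} (h : v ∉ e.1) :
    degM (insert v e.1, e.2) = degM e + 1 := by
  simp only [degM, Finset.card_insert_of_notMem h]
  omega

theorem sum_add_single (v : I) (β : I →₀ ℕ) :
    (β + Finsupp.single v 1).sum (fun _ c => c) = β.sum (fun _ c => c) + 1 := by
  rw [Finsupp.sum_add_index' (fun _ => rfl) (fun _ _ _ => rfl), Finsupp.sum_single_index rfl]

theorem degM_kap {v : I} {e : EI I} (h : v ∉ e.1) (h' : 1 ≤ e.2 v) :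
    degM (insert v e.1, e.2 - Finsupp.single v 1) + 1 = degM e := by
  have h1 := sum_add_single v (e.2 - Finsupp.single v 1)
  rw [sub_add_single h'] at h1
  simp only [degM, Finset.card_insert_of_notMem h, h1]
  omega

theorem degM_tau {v : I} {e : EI I} (h : v ∈ e.1) :
    degM (e.1.erase v, e.2 + Finsupp.single v 1) = degM e + 1 := by
  have h1 := sum_add_single v e.2
  have := Finset.card_pos.2 ⟨v, h⟩
  simp only [degM, Finset.card_erase_of_mem h, h1]
  omega

/-! ### supports -/

theorem pd_supp {P P' : List (I →₀ ℕ) → EI I → Prop} {F : List (I →₀ ℕ) → EI I → k}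
    (hF : ∀ l e, F l e ≠ 0 → P l e)
    (h1 : ∀ v ∈ T, ∀ y l (e : EI I), v ∈ e.1 → P ((y + Finsupp.single v 1) :: l) (e.1.erase v, e.2) →
      P' (y :: l) e)
    (h2 : ∀ v ∈ T, ∀ y l (e : EI I), v ∉ e.1 → 1 ≤ e.2 v →
      P ((y + Finsupp.single v (p - 1)) :: l) (insert v e.1, e.2 - Finsupp.single v 1) →
      P' (y :: l) e) :
    ∀ l e, pd p T F l e ≠ 0 → P' l e := by
  intro l e
  cases l with
  | nil => intro h; exact absurd rfl h
  | cons y l =>
    rw [pd_cons, Finset.sum_apply]
    intro h
    obtain ⟨v, hv, h⟩ := Finset.exists_ne_zero_of_sum_ne_zero h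
    rw [Pi.add_apply, lam_apply, kap_apply] at h
    by_cases hve : v ∈ e.1
    · rw [if_pos hve, if_neg (fun h' => h'.1 hve), add_zero] at h
      exact h1 v hv y l e hve (hF _ _ (right_ne_zero_of_mul h))
    · rw [if_neg hve, zero_add] at h
      by_cases hb : 1 ≤ e.2 v
      · rw [if_pos ⟨hve, hb⟩] at h
        exact h2 v hv y l e hve hb (hF _ _ (right_ne_zero_of_mul h))
      · rw [if_neg (fun h' => hb h'.2)] at h
        exact absurd rfl h

theorem red_cons {y : I →₀ ℕ} {l : List (I →₀ ℕ)} :
    Red p (y :: l) ↔ (∀ v, y v < p) ∧ Red p l := by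
  simp only [Red, List.mem_cons, forall_eq_or_imp]

/-- graded support: words of length `a`, monomials of degree `b`, reduced, total digit vector in
`Q` -/
def Sup (p : ℕ) (Q : (I →₀ ℕ) → Prop) (a b : ℕ) (F : List (I →₀ ℕ) → EI I → k) : Prop :=
  ∀ l e, F l e ≠ 0 → l.length = a ∧ degM e = b ∧ Red p l ∧ Q (l.sum + dg p e)

variable {Q : (I →₀ ℕ) → Prop} {a b : ℕ} {F G : List (I →₀ ℕ) → EI I → k}

theorem Sup.pd (hp : 1 ≤ p) (hF : Sup p Q a b F) : Sup p Q a (b + 1) (pd p T F) := by
  refine pd_supp hF ?_ ?_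
  · rintro v - y l e hv ⟨h1, h2, h3, h4⟩
    rw [red_cons] at h3
    refine ⟨by simpa using h1, by rw [← degM_lam hv, h2], red_cons.2 ⟨fun w =>
      lt_of_le_of_lt ?_ (h3.1 w), h3.2⟩, ?_⟩
    · rw [Finsupp.add_apply]; omega
    · have e1 : (y :: l).sum + dg p e =
          ((y + Finsupp.single v 1) :: l).sum + dg p (e.1.erase v, e.2) := by
        rw [← dg_lam hv, List.sum_cons, List.sum_cons]
        abel
      rw [e1]
      exact h4
  · rintro v - y l e hv hb ⟨h1, h2, h3, h4⟩
    rw [red_cons] at h3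
    refine ⟨by simpa using h1, by rw [← degM_kap hv hb, h2], red_cons.2 ⟨fun w =>
      lt_of_le_of_lt ?_ (h3.1 w), h3.2⟩, ?_⟩
    · rw [Finsupp.add_apply]; omega
    · have e1 : (y :: l).sum + dg p e = ((y + Finsupp.single v (p - 1)) :: l).sum +
          dg p (insert v e.1, e.2 - Finsupp.single v 1) := by
        rw [← dg_kap hp hv hb, List.sum_cons, List.sum_cons]
        abel
      rw [e1]
      exact h4

theorem Sup.hh (hF : Sup p Q (a + 1) b F) : Sup p Q a b (hh F) := by
  intro l e h
  obtain ⟨h1, h2, h3, h4⟩ := hF _ _ h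
  refine ⟨by simpa using h1, h2, (red_cons.1 h3).2, ?_⟩
  simpa using h4

theorem Ph_eq' (F : List (I →₀ ℕ) → EI I → k) : Ph p T F = hh (H632.pd p T F) := by
  funext l
  exact Ph_eq F l

theorem Sup.Ph (hp : 1 ≤ p) (hF : Sup p Q (a + 1) b F) : Sup p Q a (b + 1) (Ph p T F) := by
  rw [Ph_eq']
  exact (hF.pd hp).hh

theorem Sup.sub (hF : Sup p Q a b F) (hG : Sup p Q a b G) : Sup p Q a b (fun l => F l - G l) := by
  intro l e h
  by_cases h' : F l e = 0
  · refine hG l e fun h'' => h ?_
    simp only [Pi.sub_apply, h', h'', sub_zero]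
  · exact hF l e h'

theorem dC_supp {P P' : List (I →₀ ℕ) → EI I → Prop} {F : List (I →₀ ℕ) → EI I → k}
    (hF : ∀ l e, F l e ≠ 0 → P l e)
    (h1 : ∀ l₁ (y m : I →₀ ℕ) l₂ e, P (l₁ ++ (y + m) :: l₂) e → P' (l₁ ++ y :: m :: l₂) e)
    (h2 : ∀ l₁ e, P l₁ e → P' (l₁ ++ [0]) e) :
    ∀ l e, dC l F e ≠ 0 → P' l e := by
  have key : ∀ (l l₀ : List (I →₀ ℕ)) e, dC l (fun l' => F (l₀ ++ l')) e ≠ 0 → P' (l₀ ++ l) e := by
    intro l
    induction l with
    | nil => intro l₀ e h; exact absurd rfl h
    | cons y l ih =>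
      intro l₀ e h
      cases l with
      | nil =>
        rw [dC_single] at h
        split_ifs at h with hy
        · rw [List.append_nil] at h
          rw [hy]
          exact h2 _ _ (hF _ _ h)
        · exact absurd rfl h
      | cons m l =>
        rw [dC_cons, Pi.sub_apply] at h
        by_cases h' : F (l₀ ++ (y + m) :: l) e = 0
        · have h3 : dC (m :: l) (fun l' => F ((l₀ ++ [y]) ++ l')) e ≠ 0 := by
            intro h4
            apply h
            rw [h', zero_sub, neg_eq_zero]
            simpa using h4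
          have := ih (l₀ ++ [y]) e h3
          simpa using this
        · exact h1 _ _ _ _ _ (hF _ _ h')
  intro l e h
  simpa using key l [] e (by simpa using h)

theorem Sup.dC (hp : 1 ≤ p) (hF : Sup p Q a b F) : Sup p Q (a + 1) b (fun l => dC l F) := by
  refine dC_supp hF ?_ ?_
  · rintro l₁ y m l₂ e ⟨h1, h2, h3, h4⟩
    refine ⟨?_, h2, ?_, ?_⟩
    · simp only [List.length_append, List.length_cons] at h1 ⊢; omega
    · intro x hx v
      simp only [List.mem_append, List.mem_cons] at hx
      rcases hx with hx | rfl | rfl | hx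
      · exact h3 x (by simp [hx]) v
      · have := h3 (x + m) (by simp) v
        rw [Finsupp.add_apply] at this
        omega
      · have := h3 (y + x) (by simp) v
        rw [Finsupp.add_apply] at this
        omega
      · exact h3 x (by simp [hx]) v
    · convert h4 using 2
      simp only [List.sum_append, List.sum_cons]
      abel
  · rintro l₁ e ⟨h1, h2, h3, h4⟩
    refine ⟨by simp [h1], h2, ?_, by simpa using h4⟩
    intro x hx v
    simp only [List.mem_append, List.mem_cons, List.not_mem_nil, or_false] at hx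
    rcases hx with hx | rfl
    · exact h3 x hx v
    · simp only [Finsupp.zero_apply]; omega

theorem Sup.redL (hF : Sup p Q a b F) : RedL p F := by
  rintro l y ⟨v, hv⟩
  funext e
  by_contra h
  have := (hF _ _ h).2.2.1 y (by simp) v
  omega

end Vale.Agent.P257.H632

end
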