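import Vale.Agent.P257.H632.Words2

/-!
# P257 (helper632): (T1) and (T2) for word cochains
-/

set_option linter.unusedSectionVars false

noncomputable section

namespace Vale.Agent.P257.H632

variable {I : Type} [DecidableEq I] [HasOrd I] {k : Type} [CommRing k] {p : ℕ} {T : Finset I}

/-! ### `Θ` kills boundaries -/

theorem dC_toC (l : List (I →₀ ℕ)) (f : List (I →₀ ℕ) → k) (c : EI I → k) :
    dC l (toC f c) = dC l f • c :=
  dC_map (LinearMap.toSpanSingleton k (EI I → k) c).toAddMonoidHom l f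

theorem dC_eval (l : List (I →₀ ℕ)) (F : List (I →₀ ℕ) → EI I → k) (e : EI I) :
    dC l (fun l' => F l' e) = dC l F e :=
  dC_map (LinearMap.proj e : (EI I → k) →ₗ[k] k).toAddMonoidHom l F

theorem iter_succ (n : ℕ) (F : List (I →₀ ℕ) → EI I → k) :
    (Ph p T)^[n + 1] F = Ph p T ((Ph p T)^[n] F) := Function.iterate_succ_apply' _ _ _

theorem toC_sup {Q : (I →₀ ℕ) → Prop} {a : ℕ} {f : List (I →₀ ℕ) → k}
    (hf : ∀ l, f l ≠ 0 → l.length = a ∧ Red p l ∧ Q l.sum) : Sup p Q a 0 (toC f one1) := by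
  intro l e h
  simp only [toC, Pi.smul_apply, one1, smul_eq_mul, mul_ite, mul_one, mul_zero, ne_eq,
    ite_eq_right_iff, not_forall] at h
  obtain ⟨rfl, h⟩ := h
  obtain ⟨h1, h2, h3⟩ := hf l h
  refine ⟨h1, by simp [degM], h2, by simpa [dg] using h3⟩

theorem iter_sup (hp : 1 ≤ p) {Q : (I →₀ ℕ) → Prop} {a b n : ℕ}
    {F : List (I →₀ ℕ) → EI I → k} (hF : Sup p Q (a + n) b F) :
    Sup p Q a (b + n) ((Ph p T)^[n] F) := by
  induction n generalizing a with
  | zero => exact hF
  | succ n ih =>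
    rw [iter_succ]
    exact Sup.Ph hp (ih (a := a + 1) (by rwa [add_assoc, add_comm 1 n]))

/-- `F` lives on reduced words -/
def RedA (p : ℕ) (F : List (I →₀ ℕ) → EI I → k) : Prop := ∀ l, ¬ Red p l → F l = 0

theorem RedA.redL {F : List (I →₀ ℕ) → EI I → k} (hF : RedA p F) : RedL p F := by
  rintro l y ⟨v, hv⟩
  apply hF
  intro h
  have := h y (by simp) v
  omega

theorem RedA.Ph {F : List (I →₀ ℕ) → EI I → k} (hF : RedA p F) : RedA p (Ph p T F) := by
  intro l hl
  have h : ∀ y : I →₀ ℕ, F (y :: l) = 0 := fun y => hF _ fun h => hl (red_cons.1 h).2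
  rw [H632.Ph]
  simp [h]

theorem RedA.iter {F : List (I →₀ ℕ) → EI I → k} (hF : RedA p F) (n : ℕ) :
    RedA p ((H632.Ph p T)^[n] F) := by
  induction n with
  | zero => exact hF
  | succ n ih => rw [iter_succ]; exact ih.Ph

theorem iter_dK (hp : 2 ≤ p) {g : List (I →₀ ℕ) → k} (hg : ∀ l, ¬ Red p l → g l = 0)
    (c : EI I → k) (j : ℕ) (l : List (I →₀ ℕ)) :
    (Ph p T)^[j + 1] (toC (dK g) c) l =
      ((-1 : ℤ) ^ (j + 1)) • dC (0 :: l) (pd p T ((Ph p T)^[j] (toC g c))) := by
  have hR : RedA p (toC g c) := fun l hl => by rw [toC, hg l hl, zero_smul]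
  induction j generalizing l with
  | zero =>
    rw [zero_add, Function.iterate_one, Function.iterate_zero_apply, pow_one, neg_one_smul,
      Ph_eq, dC_pd hp, pd_cons, pd_cons, ← Finset.sum_neg_distrib]
    refine Finset.sum_congr rfl fun v _ => ?_
    have h1 : ∀ a : ℕ, a ≠ 0 → toC (dK g) c ((0 + Finsupp.single v a) :: l) =
        - dC ((0 + Finsupp.single v a) :: l) (toC g c) := by
      intro a ha
      rw [dC_toC, toC, dK, if_neg (add_single_ne_zero 0 v ha), zero_sub, neg_smul]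
    rw [h1 1 one_ne_zero, h1 (p - 1) (by omega)]
    simp only [map_neg]
    abel
  | succ j ih =>
    rw [iter_succ, Ph_eq]
    have h1 : pd p T ((Ph p T)^[j + 1] (toC (dK g) c)) (0 :: l) =
        ((-1 : ℤ) ^ (j + 1)) • (pd p T (pd p T ((Ph p T)^[j] (toC g c))) (0 :: l) -
          pd p T (fun l' => dC l' ((Ph p T)^[j + 1] (toC g c))) (0 :: l)) := by
      rw [← pd_sub]
      have h2 : pd p T ((Ph p T)^[j + 1] (toC (dK g) c)) (0 :: l) =
          pd p T (fun l' => ((-1 : ℤ) ^ (j + 1)) • (pd p T ((Ph p T)^[j] (toC g c)) l' -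
            dC l' ((Ph p T)^[j + 1] (toC g c)))) (0 :: l) := by
        apply pd_congr
        intro l' _ hl'
        cases l' with
        | nil => exact absurd rfl hl'
        | cons m l' =>
          rw [ih, dC_cons, zero_add, iter_succ]
          congr 3
          funext l''
          exact (Ph_eq _ _).symm
      rw [h2, pd_cons, pd_cons, Finset.smul_sum]
      refine Finset.sum_congr rfl fun v _ => ?_
      simp only [map_zsmul, smul_add]
    rw [h1, pd_pd (by omega) (hR.iter j).redL, zero_sub, ← dC_pd hp, smul_neg, pow_succ (-1 : ℤ) (j + 1),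
      mul_neg_one, neg_smul]

/-- (T1) for words -/
theorem iter_dK_nil (hp : 2 ≤ p) {g : List (I →₀ ℕ) → k} (hg : ∀ l, ¬ Red p l → g l = 0)
    (c : EI I → k) (j : ℕ) : (Ph p T)^[j + 1] (toC (dK g) c) [] = 0 := by
  rw [iter_dK hp hg, dC_single, if_pos rfl]
  exact smul_zero _

theorem thW_dK (hp : 2 ≤ p) {g : List (I →₀ ℕ) → k} (hg : ∀ l, ¬ Red p l → g l = 0) (n : ℕ)
    (r : EI I) : thW p (n + 1) r (dK g) = 0 := by
  rw [thW, iter_dK_nil hp hg]
  rfl

/-! ### locality of `Θ` -/

theorem mem_esup {v : I} {e : EI I} : v ∈ esup e ↔ v ∈ e.1 ∨ 1 ≤ e.2 v := by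
  rw [esup, Finset.mem_union, Finsupp.mem_support_iff, Nat.one_le_iff_ne_zero]

theorem Ph_apply (F : List (I →₀ ℕ) → EI I → k) (l : List (I →₀ ℕ)) (e : EI I) :
    Ph p T F l e = ∑ v ∈ T ∩ esup e,
      ((if v ∈ e.1 then (sg v e.1 : k) * F (Finsupp.single v 1 :: l) (e.1.erase v, e.2) else 0) +
      (if v ∉ e.1 ∧ 1 ≤ e.2 v then (sg v e.1 : k) *
        F (Finsupp.single v (p - 1) :: l) (insert v e.1, e.2 - Finsupp.single v 1) else 0)) := by
  rw [Ph, Finset.sum_apply]
  symm
  apply Finset.sum_subset Finset.inter_subset_left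
  intro v hv hv'
  have h : v ∉ esup e := fun h => hv' (Finset.mem_inter.2 ⟨hv, h⟩)
  rw [mem_esup, not_or] at h
  rw [if_neg h.1, if_neg (fun h' => h.2 h'.2), add_zero]

theorem esup_lam {v : I} {e : EI I} : esup (e.1.erase v, e.2) ⊆ esup e := by
  intro w hw
  rw [mem_esup] at hw ⊢
  rcases hw with h | h
  · exact Or.inl (Finset.mem_of_mem_erase h)
  · exact Or.inr h

theorem esup_kap {v : I} {e : EI I} (hv : 1 ≤ e.2 v) :
    esup (insert v e.1, e.2 - Finsupp.single v 1) ⊆ esup e := by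
  intro w hw
  rw [mem_esup] at hw ⊢
  rcases hw with h | h
  · rcases Finset.mem_insert.1 h with rfl | h
    · exact Or.inr hv
    · exact Or.inl h
  · right
    simp only [Finsupp.tsub_apply] at h
    omega

theorem iter_local (hp : 1 ≤ p) {T T' S : Finset I} (hT : ∀ v ∈ S, v ∈ T ↔ v ∈ T') {ρ : I →₀ ℕ}
    (n : ℕ) : ∀ (a : ℕ) (F F' : List (I →₀ ℕ) → EI I → k),
    (∀ l e, l.length = a + n → l.sum + dg p e = ρ → esup e ⊆ S → F l e = F' l e) →
    ∀ l e, l.length = a → l.sum + dg p e = ρ → esup e ⊆ S →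
      (Ph p T)^[n] F l e = (Ph p T')^[n] F' l e := by
  induction n with
  | zero => intro a F F' h l e h1 h2 h3; exact h l e h1 h2 h3
  | succ n ih =>
    intro a F F' h l e h1 h2 h3
    rw [Function.iterate_succ_apply', Function.iterate_succ_apply', Ph_apply, Ph_apply]
    have hTT : T ∩ esup e = T' ∩ esup e := by
      ext v
      simp only [Finset.mem_inter]
      constructor
      · rintro ⟨a1, a2⟩; exact ⟨(hT v (h3 a2)).1 a1, a2⟩
      · rintro ⟨a1, a2⟩; exact ⟨(hT v (h3 a2)).2 a1, a2⟩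
    rw [hTT]
    refine Finset.sum_congr rfl fun v _ => ?_
    have ih' := ih (a + 1) F F' (by rwa [show a + 1 + n = a + (n + 1) by ring])
    congr 1
    · split_ifs with hv
      · rw [ih' _ _ (by simp [h1]) _ (esup_lam.trans h3)]
        rw [List.sum_cons, add_right_comm, dg_lam hv, add_comm, h2]
      · rfl
    · split_ifs with hv
      · rw [ih' _ _ (by simp [h1]) _ ((esup_kap hv.2).trans h3)]
        rw [List.sum_cons, add_right_comm, dg_kap hp hv.1 hv.2, add_comm, h2]
      · rfl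

/-- `Θ_r` only depends on the values on words of total digit vector `dg r`. -/
theorem thW_congr (hp : 1 ≤ p) {n : ℕ} {r : EI I} {f f' : List (I →₀ ℕ) → k}
    (h : ∀ l, l.length = n → l.sum = dg p r → f l = f' l) : thW p n r f = thW p n r f' := by
  apply iter_local hp (S := esup r) (fun _ _ => Iff.rfl) (ρ := dg p r) n 0
  · intro l e h1 h2 _
    by_cases he : e = (∅, 0)
    · subst he
      have h3 : l.sum = dg p r := by
        rw [← h2]; simp [dg]
      rw [toC, toC, h l (by rwa [zero_add] at h1) h3]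
    · simp only [toC, Pi.smul_apply, one1, if_neg he, smul_eq_mul, mul_zero]
  · rfl
  · simp
  · exact Finset.Subset.refl _

/-- `Θ_r` may be computed with any set of variables containing those of `r`. -/
theorem iter_eq_thW (hp : 1 ≤ p) {n : ℕ} {r : EI I} {f : List (I →₀ ℕ) → k} (hT : esup r ⊆ T) :
    (Ph p T)^[n] (toC f one1) [] r = thW p n r f := by
  apply iter_local hp (S := esup r) (fun v hv => ⟨fun _ => hv, fun _ => hT hv⟩) (ρ := dg p r) n 0
  · intro l e _ _ _; rfl
  · rfl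
  · simp
  · exact Finset.Subset.refl _

end Vale.Agent.P257.H632

end
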