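import Vale.Agent.P257.H632.Words3

/-!
# P257 (helper632): exactness of the columns and (T2) for words
-/

set_option linter.unusedSectionVars false

noncomputable section

namespace Vale.Agent.P257.H632

variable {I : Type} [DecidableEq I] [HasOrd I] {k : Type} [CommRing k] {p : ℕ} {T : Finset I}

open Classical in
/-- choice of a variable for every digit vector -/
def pick (T : Finset I) (ρ : I →₀ ℕ) : Option I :=
  if h : ∃ u ∈ T, ρ u ≠ 0 then some h.choose else none

theorem pick_some {ρ : I →₀ ℕ} {u : I} (h : pick T ρ = some u) : u ∈ T ∧ ρ u ≠ 0 := by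
  unfold pick at h
  split_ifs at h with h'
  rw [Option.some.injEq] at h
  rw [← h]
  exact h'.choose_spec

theorem pick_none {ρ : I →₀ ℕ} (h : pick T ρ = none) {u : I} (hu : u ∈ T) : ρ u = 0 := by
  unfold pick at h
  split_ifs at h with h'
  by_contra hne
  exact h' ⟨u, hu, hne⟩

/-- the column contraction -/
def cc (p : ℕ) (T : Finset I) (F : List (I →₀ ℕ) → EI I → k) : List (I →₀ ℕ) → EI I → k
  | [], _ => 0
  | y :: l, e => match pick T (y + dg p e) with
    | some u => Cv p u (fun y' => F (y' :: l)) y e
    | none => 0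

theorem cc_some {F : List (I →₀ ℕ) → EI I → k} {y : I →₀ ℕ} {l : List (I →₀ ℕ)} {e : EI I} {u : I}
    (h : pick T (y + dg p e) = some u) :
    cc p T F (y :: l) e = Cv p u (fun y' => F (y' :: l)) y e := by
  simp only [cc, h]

theorem cc_none {F : List (I →₀ ℕ) → EI I → k} {y : I →₀ ℕ} {l : List (I →₀ ℕ)} {e : EI I}
    (h : pick T (y + dg p e) = none) :
    cc p T F (y :: l) e = 0 := by
  simp only [cc, h]

theorem dg_apply (e : EI I) (u : I) : dg p e u = (if u ∈ e.1 then 1 else 0) + p * e.2 u := by
  rw [dg, Finsupp.add_apply, Finsupp.finsetSum_apply, Finsupp.smul_apply, smul_eq_mul]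
  congr 1
  rw [Finset.sum_congr rfl (fun v _ => Finsupp.single_apply)]
  rw [Finset.sum_ite_eq']

theorem Cv_add_sum {ι : Type} (s : Finset ι) (u : I) (G : ι → (I →₀ ℕ) → EI I → k) (y : I →₀ ℕ) :
    Cv p u (fun y' => ∑ i ∈ s, G i y') y = ∑ i ∈ s, Cv p u (G i) y := by
  simp only [Cv]
  rw [Finset.sum_add_distrib]
  congr 1
  · split_ifs
    · rw [map_sum]
    · simp
  · split_ifs
    · rw [map_sum]
    · simp

theorem cc_pd (hp : 2 ≤ p) (F : List (I →₀ ℕ) → EI I → k) {y : I →₀ ℕ} (hy : ∀ v, y v < p)
    (l : List (I →₀ ℕ)) (e : EI I) {u : I} (h : pick T (y + dg p e) = some u) :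
    pd p T (cc p T F) (y :: l) e + cc p T (pd p T F) (y :: l) e = F (y :: l) e := by
  have hu := pick_some h
  have h1 : pd p T (cc p T F) (y :: l) e =
      ∑ v ∈ T, Dv p v (Cv p u (fun y' => F (y' :: l))) y e := by
    rw [pd_cons, Finset.sum_apply]
    refine Finset.sum_congr rfl fun v _ => ?_
    rw [Dv, Pi.add_apply, Pi.add_apply, lam_apply, lam_apply, kap_apply, kap_apply]
    congr 1
    · split_ifs with hv
      · rw [cc_some (u := u)]
        rw [add_assoc, dg_lam hv]
        exact h
      · rfl
    · split_ifs with hv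
      · rw [cc_some (u := u)]
        rw [add_assoc, dg_kap (by omega) hv.1 hv.2]
        exact h
      · rfl
  have h2 : cc p T (pd p T F) (y :: l) e =
      ∑ v ∈ T, Cv p u (Dv p v (fun y' => F (y' :: l))) y e := by
    rw [cc_some h, ← Finset.sum_apply, ← Cv_add_sum]
    rfl
  rw [h1, h2, ← Finset.sum_add_distrib, Finset.sum_eq_single u]
  · apply Dv_Cv_self _ _ hp (hy u)
    have h3 := hu.2
    rw [Finsupp.add_apply, dg_apply] at h3
    by_contra hcon
    push Not at hcon
    apply h3
    rw [hcon.1, if_neg hcon.2.1, show e.2 u = 0 by omega]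
    simp
  · intro v _ hv
    have := congrFun (Dv_Cv (p := p) (fun y' => F (y' :: l)) y hv.symm) e
    simpa using this
  · intro h'
    exact absurd hu.1 h'

theorem cc_supp {P P' : List (I →₀ ℕ) → EI I → Prop} {F : List (I →₀ ℕ) → EI I → k}
    (hF : ∀ l e, F l e ≠ 0 → P l e)
    (h1 : ∀ v ∈ T, ∀ y l (e : EI I), v ∉ e.1 → 1 ≤ y v → y v < p →
      P ((y - Finsupp.single v 1) :: l) (insert v e.1, e.2) → P' (y :: l) e)
    (h2 : ∀ v ∈ T, ∀ y l (e : EI I), v ∈ e.1 → y v = p - 1 →
      P ((y - Finsupp.single v (p - 1)) :: l) (e.1.erase v, e.2 + Finsupp.single v 1) →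
      P' (y :: l) e) :
    ∀ l e, cc p T F l e ≠ 0 → P' l e := by
  intro l e h
  cases l with
  | nil => exact absurd rfl h
  | cons y l =>
    cases hpk : pick T (y + dg p e) with
    | none => exact absurd (cc_none hpk) h
    | some u =>
      have hu := (pick_some hpk).1
      rw [cc_some hpk, Cv, Pi.add_apply] at h
      by_cases hue : u ∈ e.1
      · by_cases hy : y u = p - 1
        · apply h2 u hu y l e hue hy
          apply hF
          intro h0
          apply h
          rw [if_pos hy, tau_apply, h0, mul_zero, ite_self, add_zero]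
          split_ifs
          · rw [iot_apply, if_neg (not_not.2 hue)]
          · rfl
        · exfalso
          apply h
          rw [if_neg hy]
          split_ifs
          · rw [iot_apply, if_neg (not_not.2 hue)]
            simp
          · simp
      · by_cases hy : 1 ≤ y u ∧ y u < p
        · apply h1 u hu y l e hue hy.1 hy.2
          apply hF
          intro h0
          apply h
          rw [if_pos hy, iot_apply, h0, mul_zero, ite_self, zero_add]
          split_ifs
          · rw [tau_apply, if_neg hue]
          · rfl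
        · exfalso
          apply h
          rw [if_neg hy]
          split_ifs
          · rw [tau_apply, if_neg hue]
            simp
          · simp

/-- degrees: `cc` lowers the degree of the monomial by one -/
theorem cc_sup (hp : 2 ≤ p) {Q : (I →₀ ℕ) → Prop} {a b : ℕ} {F : List (I →₀ ℕ) → EI I → k}
    (hF : Sup p Q a b F) (l : List (I →₀ ℕ)) (e : EI I) (h : cc p T F l e ≠ 0) :
    l.length = a ∧ degM e + 1 = b ∧ Red p l ∧ Q (l.sum + dg p e) := by
  revert l e
  refine cc_supp (T := T) hF ?_ ?_
  · rintro v - y l e hv hy hy' ⟨h1, h2, h3, h4⟩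
    rw [red_cons] at h3
    refine ⟨by simpa using h1, by rw [← degM_iot hv, h2], red_cons.2 ⟨fun w => ?_, h3.2⟩, ?_⟩
    · have := h3.1 w
      by_cases hw : w = v
      · subst hw; exact hy'
      · rwa [Finsupp.tsub_apply, Finsupp.single_eq_of_ne hw, Nat.sub_zero] at this
    · have e1 : (y :: l).sum + dg p e =
          ((y - Finsupp.single v 1) :: l).sum + dg p (insert v e.1, e.2) := by
        rw [dg_iot hv, List.sum_cons, List.sum_cons]
        conv_lhs => rw [← sub_add_single hy]
        generalize y - Finsupp.single v 1 = z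
        abel
      rw [e1]
      exact h4
  · rintro v - y l e hv hy ⟨h1, h2, h3, h4⟩
    rw [red_cons] at h3
    refine ⟨by simpa using h1, by rw [← degM_tau hv, h2], red_cons.2 ⟨fun w => ?_, h3.2⟩, ?_⟩
    · have := h3.1 w
      by_cases hw : w = v
      · subst hw; omega
      · rwa [Finsupp.tsub_apply, Finsupp.single_eq_of_ne hw, Nat.sub_zero] at this
    · have e2 : y - Finsupp.single v (p - 1) + Finsupp.single v (p - 1) = y := by
        ext w
        rw [Finsupp.add_apply, Finsupp.tsub_apply]
        by_cases hw : w = v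
        · subst hw; rw [Finsupp.single_eq_same]; omega
        · rw [Finsupp.single_eq_of_ne hw]; omega
      have e1 : (y :: l).sum + dg p e = ((y - Finsupp.single v (p - 1)) :: l).sum +
          dg p (e.1.erase v, e.2 + Finsupp.single v 1) := by
        rw [dg_tau (by omega) hv, List.sum_cons, List.sum_cons]
        conv_lhs => rw [← e2]
        generalize y - Finsupp.single v (p - 1) = z
        abel
      rw [e1]
      exact h4

theorem dg_eq_zero {e : EI I} (hp : 0 < p) (h : dg p e = 0) : e = (∅, 0) := by
  obtain ⟨S, β⟩ := e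
  have h1 : ∀ u, (if u ∈ S then 1 else 0) + p * β u = 0 := fun u => by
    have := DFunLike.congr_fun h u
    rwa [dg_apply] at this
  refine Prod.ext ?_ ?_
  · ext u
    have := h1 u
    simp only [Finset.notMem_empty, iff_false]
    intro hu
    rw [if_pos hu] at this
    omega
  · ext u
    have := h1 u
    simp only [Finsupp.zero_apply]
    have h3 : p * β u = 0 := by omega
    rcases Nat.mul_eq_zero.1 h3 with h | h
    · omega
    · exact h

/-- exactness of the columns in positive degree -/
theorem eq_pd_cc (hp : 2 ≤ p) {Q : (I →₀ ℕ) → Prop} (hQ : ∀ ρ, Q ρ → ∀ v ∉ T, ρ v = 0) {a b : ℕ}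
    {F : List (I →₀ ℕ) → EI I → k} (hF : Sup p Q (a + 1) (b + 1) F) (h0 : ∀ l, pd p T F l = 0)
    (l : List (I →₀ ℕ)) : F l = pd p T (cc p T F) l := by
  have hsup : Sup p Q (a + 1) (b + 1) (pd p T (cc p T F)) := by
    apply Sup.pd (by omega)
    intro l e h
    obtain ⟨h1, h2, h3, h4⟩ := cc_sup hp hF l e h
    exact ⟨h1, by omega, h3, h4⟩
  cases l with
  | nil =>
    funext e
    by_contra h
    have : F [] e ≠ 0 := h
    have := (hF _ _ this).1
    simp at this
  | cons y l =>
    funext e
    cases hpk : pick T (y + dg p e) with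
    | some u =>
      by_cases hy : ∀ v, y v < p
      · have h1 := cc_pd hp F hy l e hpk
        have h2 : cc p T (pd p T F) (y :: l) e = 0 := by
          rw [cc_some hpk, Cv]
          simp only [h0, map_zero, ite_self, add_zero, Pi.zero_apply]
        rw [h2, add_zero] at h1
        exact h1.symm
      · push Not at hy
        obtain ⟨v, hv⟩ := hy
        have h1 : F (y :: l) e = 0 := by
          by_contra h
          have := (hF _ _ h).2.2.1 y (by simp) v
          omega
        have h2 : pd p T (cc p T F) (y :: l) e = 0 := by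
          by_contra h
          have := (hsup _ _ h).2.2.1 y (by simp) v
          omega
        rw [h1, h2]
    | none =>
      have key : ∀ F' : List (I →₀ ℕ) → EI I → k, Sup p Q (a + 1) (b + 1) F' →
          F' (y :: l) e = 0 := by
        intro F' hF'
        by_contra h
        obtain ⟨_, h2, _, h4⟩ := hF' _ _ h
        have h5 : y + dg p e = 0 := by
          ext v
          by_cases hv : v ∈ T
          · exact pick_none hpk hv
          · have := hQ _ h4 v hv
            rw [List.sum_cons, Finsupp.add_apply, Finsupp.add_apply] at this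
            rw [Finsupp.add_apply, Finsupp.zero_apply]
            omega
        have h6 : dg p e = 0 := by
          ext v
          have := DFunLike.congr_fun h5 v
          rw [Finsupp.add_apply, Finsupp.zero_apply] at this
          rw [Finsupp.zero_apply]
          omega
        rw [dg_eq_zero (by omega) h6] at h2
        simp [degM] at h2
      rw [key F hF, key _ hsup]

/-- exactness of the columns in degree zero -/
theorem eq_zero_of_pd (hp : 2 ≤ p) {Q : (I →₀ ℕ) → Prop} (hQ : ∀ ρ, Q ρ → ∀ v ∉ T, ρ v = 0) {a : ℕ}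
    {F : List (I →₀ ℕ) → EI I → k} (hF : Sup p Q a 0 F) (h0 : ∀ l, pd p T F l = 0)
    {y : I →₀ ℕ} (hy0 : y ≠ 0) (l : List (I →₀ ℕ)) : F (y :: l) = 0 := by
  funext e
  by_contra h
  obtain ⟨_, _, h3, h4⟩ := hF _ _ h
  rw [red_cons] at h3
  have h5 : ∃ u ∈ T, (y + dg p e) u ≠ 0 := by
    by_contra hcon
    push Not at hcon
    apply hy0
    ext v
    rw [Finsupp.zero_apply]
    by_cases hv : v ∈ T
    · have := hcon v hv
      rw [Finsupp.add_apply] at this
      omega
    · have := hQ _ h4 v hv
      rw [List.sum_cons, Finsupp.add_apply, Finsupp.add_apply] at this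
      omega
  cases hpk : pick T (y + dg p e) with
  | none =>
    obtain ⟨u, hu, hne⟩ := h5
    exact hne (pick_none hpk hu)
  | some u =>
    have h1 := cc_pd hp F h3.1 l e hpk
    have h2 : cc p T (pd p T F) (y :: l) e = 0 := by
      rw [cc_some hpk, Cv]
      simp only [h0, map_zero, ite_self, add_zero, Pi.zero_apply]
    have h6 : ∀ l e, cc p T F l e = 0 := by
      intro l e
      by_contra h'
      have := (cc_sup hp hF l e h').2.1
      omega
    have h7 : pd p T (cc p T F) (y :: l) e = 0 := by
      rw [pd_cons, Finset.sum_apply]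
      apply Finset.sum_eq_zero
      intro v _
      rw [Pi.add_apply, lam_apply, kap_apply, h6, h6]
      simp
    rw [h2, h7, add_zero] at h1
    exact h h1.symm

/-- (T2) for words -/
theorem word_T2 (hp : 2 ≤ p) {n : ℕ} {Q : (I →₀ ℕ) → Prop} (hQ : ∀ ρ, Q ρ → ∀ v ∉ T, ρ v = 0)
    {f : List (I →₀ ℕ) → k} (hf : ∀ l, f l ≠ 0 → l.length = n + 1 ∧ Red p l ∧ Q l.sum)
    (hd : ∀ l, dK f l = 0) (hΘ : (Ph p T)^[n + 1] (toC f one1) [] = 0) :
    ∃ g : List (I →₀ ℕ) → k, (∀ l, g l ≠ 0 → l.length = n ∧ Red p l ∧ Q l.sum) ∧
      ∀ l, f l = dK g l := by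
  set x : ℕ → List (I →₀ ℕ) → EI I → k := fun j => (Ph p T)^[j] (toC f one1) with hx
  have hx0 : x 0 = toC f one1 := rfl
  have hxs : ∀ j, x (j + 1) = hh (pd p T (x j)) := fun j => by
    rw [← Ph_eq']; exact iter_succ j _
  have hS : ∀ j a, a + j = n + 1 → Sup p Q a j (x j) := by
    intro j a h
    have := iter_sup (p := p) (T := T) (by omega) (a := a) (n := j) (b := 0)
      (F := toC f one1) (by rw [h]; exact toC_sup hf)
    rwa [zero_add] at this
  have hf1 : ∀ (m : I →₀ ℕ) l, dC (m :: l) f = if m = 0 then f l else 0 := by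
    intro m l
    have := hd (m :: l)
    rw [dK, sub_eq_zero] at this
    exact this.symm
  -- `∂ x_j = δ x_{j+1}`
  have hA : ∀ j, j ≤ n → ∀ m l, pd p T (x j) (m :: l) = dC (m :: l) (x (j + 1)) := by
    intro j
    induction j with
    | zero =>
      intro _ m l
      have h1 := dC_zero_cons m l (pd p T (x 0))
      rw [← hxs] at h1
      rw [← h1, dC_pd hp, pd_cons, hx0]
      convert zero_add _ using 2
      apply Finset.sum_eq_zero
      intro v _
      rw [dC_toC, dC_toC, hf1, hf1, if_neg (add_single_ne_zero 0 v one_ne_zero),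
        if_neg (add_single_ne_zero 0 v (show p - 1 ≠ 0 by omega))]
      simp
    | succ j ih =>
      intro hj m l
      have h1 := dC_zero_cons m l (pd p T (x (j + 1)))
      rw [← hxs] at h1
      rw [← h1, dC_pd hp]
      have h2 : pd p T (fun l' => dC l' (x (j + 1))) (0 :: m :: l) =
          pd p T (pd p T (x j)) (0 :: m :: l) := by
        apply pd_congr
        intro l' _ hl'
        cases l' with
        | nil => exact absurd rfl hl'
        | cons a b => exact (ih (by omega) a b).symm
      rw [h2, pd_pd (by omega) (hS j (n + 1 - j) (by omega)).redL, zero_add]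
  have hlast : x (n + 1) = fun _ => 0 := by
    funext l
    cases l with
    | nil => exact hΘ
    | cons m l =>
      funext e
      by_contra h
      have := (hS (n + 1) 0 (by omega) _ _ h).1
      simp at this
  -- descending induction
  have hP : ∀ i j, i + j = n → ∃ u : List (I →₀ ℕ) → EI I → k, Sup p Q i j u ∧
      ∀ l, pd p T (fun l => x j l - dC l u) l = 0 := by
    intro i
    induction i with
    | zero =>
      intro j hj
      refine ⟨fun _ => 0, fun l e h => absurd rfl h, fun l => ?_⟩
      cases l with
      | nil => rfl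
      | cons m l =>
        simp only [dC_zero', sub_zero]
        have := hA j (by omega) m l
        rw [show j + 1 = n + 1 by omega, hlast] at this
        rw [show (fun l => x j l) = x j from rfl, this, dC_zero']
    | succ i ih =>
      intro j hj
      obtain ⟨u', hu', hpu'⟩ := ih (j + 1) (by omega)
      set G : List (I →₀ ℕ) → EI I → k := fun l => x (j + 1) l - dC l u' with hG
      have hGS : Sup p Q (i + 1) (j + 1) G :=
        (hS (j + 1) (i + 1) (by omega)).sub (hu'.dC (by omega))
      have hGc := eq_pd_cc hp hQ hGS hpu'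
      refine ⟨cc p T G, fun l e h => ?_, fun l => ?_⟩
      · obtain ⟨h1, h2, h3, h4⟩ := cc_sup hp hGS l e h
        exact ⟨h1, by omega, h3, h4⟩
      · cases l with
        | nil => rfl
        | cons m l =>
          rw [pd_sub (x j) (fun l => dC l (cc p T G)), ← dC_pd hp, hA j (by omega) m l]
          have h1 : dC (m :: l) (pd p T (cc p T G)) = dC (m :: l) G :=
            dC_congr fun l' _ => (hGc l').symm
          rw [h1, hG, dC_sub, dC_dC, sub_zero, sub_self]
  obtain ⟨u, hu, hpu⟩ := hP n 0 (by omega)
  set H : List (I →₀ ℕ) → EI I → k := fun l => x 0 l - dC l u with hH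
  have hHS : Sup p Q (n + 1) 0 H := (hS 0 (n + 1) (by omega)).sub (hu.dC (by omega))
  set u0 : List (I →₀ ℕ) → k := fun l => u l (∅, 0) with hu0
  set g : List (I →₀ ℕ) → k := fun l => H (0 :: l) (∅, 0) with hg
  have hH1 : ∀ l, H l (∅, 0) = f l - dC l u0 := by
    intro l
    rw [hH, hu0, dC_eval]
    simp only [Pi.sub_apply, hx0, toC, Pi.smul_apply, one1, if_pos, smul_eq_mul, mul_one]
  have hH2 : ∀ (y : I →₀ ℕ) l, f (y :: l) - dC (y :: l) u0 = if y = 0 then g l else 0 := by
    intro y l
    rw [← hH1]
    split_ifs with hy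
    · rw [hy]
    · rw [eq_zero_of_pd hp hQ hHS hpu hy l]
      rfl
  refine ⟨g, fun l h => ?_, fun l => ?_⟩
  · obtain ⟨h1, _, h3, h4⟩ := hHS _ _ h
    refine ⟨by simpa using h1, (red_cons.1 h3).2, by simpa [dg] using h4⟩
  · cases l with
    | nil =>
      by_contra h
      have h' : f [] ≠ 0 := fun h0 => h (by rw [h0]; rfl)
      have := (hf _ h').1
      simp at this
    | cons m l =>
      have h1 : ∀ l', u0 l' + g l' = f (0 :: l') + dC l' (hh u0) := by
        intro l'
        rw [hg]
        simp only [hH1]
        cases l' with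
        | nil => rw [dC_single, if_pos rfl, dC_nil]; ring
        | cons a b =>
          have := dC_zero_cons a b u0
          linear_combination (-1 : k) * this
      have h2 : dC (m :: l) (fun l' => u0 l' + g l') = 0 := by
        rw [dC_congr (fun l' _ => h1 l'), dC_add, dC_dC, add_zero]
        have h3 := dC_zero_cons m l f
        rw [hf1, if_pos rfl] at h3
        exact add_eq_left.1 h3
      rw [dC_add] at h2
      have h4 := hH2 m l
      rw [dK, ← h4]
      linear_combination h2

end Vale.Agent.P257.H632

end
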